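import Vale.Agent.P227.M.Defs

/-! # P227/M/Loc/TauB: linear algebra and `τ = (D²ψ)⁻¹`: symmetry, positivity, bounds, Lipschitz -/

open MeasureTheory Matrix

namespace Vale.Agent.P227.M.Loc

variable {n : ℕ}

/-- trace of a product of two positive semidefinite real matrices -/
theorem trace_mul_psd {H K : Matrix (Fin n) (Fin n) ℝ} (hH : H.PosSemidef) (hK : K.PosSemidef) :
    0 ≤ (H * K).trace := by
  obtain ⟨m, a, ha⟩ := Matrix.posSemidef_iff_eq_sum_vecMulVec.1 hH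
  rw [ha, Finset.sum_mul, Matrix.trace_sum]
  refine Finset.sum_nonneg fun i _ => ?_
  rw [Matrix.vecMulVec_mul, Matrix.trace_vecMulVec]
  have h := hK.dotProduct_mulVec_nonneg (a i)
  rw [Matrix.dotProduct_mulVec, dotProduct_comm] at h
  exact h

/-- `0 ≤ ρ² tr (Hτ) - 2ρ tr (HτNτ) + tr (HτNτNτ)` -/
theorem trace_square_nonneg {H T N : Matrix (Fin n) (Fin n) ℝ} (hH : H.PosSemidef)
    (hT : T.PosSemidef) (hN : N.IsHermitian) (ρ : ℝ) :
    0 ≤ ρ ^ 2 * (H * T).trace - 2 * ρ * (H * T * N * T).trace + (H * T * N * T * N * T).trace := by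
  have h := trace_mul_psd hH (hT.mul_mul_conjTranspose_same (ρ • (1 : Matrix (Fin n) (Fin n) ℝ) - T * N))
  have e : H * ((ρ • (1 : Matrix (Fin n) (Fin n) ℝ) - T * N) * T *
      (ρ • (1 : Matrix (Fin n) (Fin n) ℝ) - T * N)ᴴ)
      = ρ ^ 2 • (H * T) - (2 * ρ) • (H * T * N * T) + H * T * N * T * N * T := by
    rw [Matrix.conjTranspose_sub, Matrix.conjTranspose_mul, hN.eq, hT.1.eq, Matrix.conjTranspose_smul,
      Matrix.conjTranspose_one]
    simp only [Matrix.sub_mul, Matrix.mul_sub, Matrix.smul_mul, Matrix.mul_smul, Matrix.one_mul,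
      Matrix.mul_one, Matrix.mul_assoc, star_trivial, smul_sub, smul_smul]
    rw [two_mul, add_smul, pow_two]
    abel
  rw [e, Matrix.trace_add, Matrix.trace_sub, Matrix.trace_smul, Matrix.trace_smul] at h
  simpa [smul_eq_mul] using h

theorem qf_eq (A : Matrix (Fin n) (Fin n) ℝ) (v : E n) : qf A v = (v.ofLp) ⬝ᵥ (A *ᵥ v.ofLp) := by
  simp only [qf, dotProduct, Matrix.mulVec, Finset.mul_sum]
  refine Finset.sum_congr rfl fun i _ => Finset.sum_congr rfl fun j _ => ?_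
  ring

theorem posSemidef_of_qf {A : Matrix (Fin n) (Fin n) ℝ} (hs : ∀ i j, A i j = A j i)
    (h : ∀ v : E n, 0 ≤ qf A v) : A.PosSemidef := by
  refine Matrix.PosSemidef.of_dotProduct_mulVec_nonneg ?_ fun v => ?_
  · ext i j
    simp [hs i j]
  · have := h (WithLp.toLp 2 v)
    rw [qf_eq] at this
    simpa using this

theorem posDef_of_qf {A : Matrix (Fin n) (Fin n) ℝ} (hs : ∀ i j, A i j = A j i) {c : ℝ} (hc : 0 < c)
    (h : ∀ v : E n, c * ‖v‖ ^ 2 ≤ qf A v) : A.PosDef := by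
  refine Matrix.PosDef.of_dotProduct_mulVec_pos ?_ fun v hv => ?_
  · ext i j
    simp [hs i j]
  · have := h (WithLp.toLp 2 v)
    rw [qf_eq] at this
    have h2 : 0 < ‖WithLp.toLp 2 v‖ := by
      rw [norm_pos_iff]
      intro h0
      apply hv
      simpa using h0
    have h3 : 0 < c * ‖WithLp.toLp 2 v‖ ^ 2 := by positivity
    simpa using lt_of_lt_of_le h3 this

/-- second derivatives of a `C²` function -/
theorem hess_eq {f : E n → ℝ} (hf : ContDiff ℝ 2 f) (x : E n) (i j : Fin n) :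
    hess f x i j = fderiv ℝ (fderiv ℝ f) x (ei i) (ei j) := by
  have hd : DifferentiableAt ℝ (fderiv ℝ f) x :=
    ((hf.fderiv_right (m := 1) (by norm_num)).differentiable (by norm_num)) x
  have h : HasFDerivAt (fun y => fderiv ℝ f y (ei j))
      ((ContinuousLinearMap.apply ℝ ℝ (ei j)).comp (fderiv ℝ (fderiv ℝ f) x)) x :=
    (ContinuousLinearMap.apply ℝ ℝ (ei j : E n)).hasFDerivAt.comp x hd.hasFDerivAt
  show fderiv ℝ (fun y => fderiv ℝ f y (ei j)) x (ei i) = _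
  rw [h.fderiv]
  rfl

theorem hess_symm {f : E n → ℝ} (hf : ContDiff ℝ 2 f) (x : E n) (i j : Fin n) :
    hess f x i j = hess f x j i := by
  rw [hess_eq hf, hess_eq hf]
  have h : IsSymmSndFDerivAt ℝ f x := hf.contDiffAt.isSymmSndFDerivAt (by simp)
  exact h _ _

theorem sum_ei (v : E n) : v = ∑ i, v i • (ei i : E n) := by
  ext k
  simp [ei, Pi.single_apply]

theorem qf_hess {f : E n → ℝ} (hf : ContDiff ℝ 2 f) (x v : E n) :
    qf (hess f x) v = fderiv ℝ (fderiv ℝ f) x v v := by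
  have h : ∀ B : E n →L[ℝ] E n →L[ℝ] ℝ, B v v = ∑ i, ∑ j, B (ei i) (ei j) * v i * v j := fun B => by
    conv_lhs => rw [sum_ei v]
    simp only [map_sum, map_smul, smul_eq_mul, FunLike.coe_sum, Finset.sum_apply,
      FunLike.coe_smul, Pi.smul_apply]
    rw [Finset.sum_comm]
    refine Finset.sum_congr rfl fun i _ => ?_
    simp only [Finset.mul_sum]
    refine Finset.sum_congr rfl fun j _ => ?_
    ring
  rw [h, qf]
  simp only [hess_eq hf]

/-! ### bounds for the inverse matrix -/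

theorem abs_inv_le {A : Matrix (Fin n) (Fin n) ℝ} (hA : A.PosDef) {c : ℝ} (hc : 0 < c)
    (h : ∀ v : E n, c * ‖v‖ ^ 2 ≤ qf A v) (i j : Fin n) : |A⁻¹ i j| ≤ 1 / c := by
  set w : E n := WithLp.toLp 2 (A⁻¹ *ᵥ (Pi.single j 1)) with hw
  have hwi : ∀ i, w i = A⁻¹ i j := fun i => by simp [hw]
  have hdet : IsUnit A.det := (Matrix.isUnit_iff_isUnit_det A).1 hA.isUnit
  have h1 := h w
  rw [qf_eq] at h1
  have h2 : A *ᵥ w.ofLp = Pi.single j 1 := by
    rw [hw]
    simp only [Matrix.mulVec_mulVec]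
    rw [Matrix.mul_nonsing_inv _ hdet, Matrix.one_mulVec]
  rw [h2] at h1
  simp only [dotProduct_single, mul_one] at h1
  have h3 : ∀ i, |w i| ≤ ‖w‖ := fun i => by
    have := PiLp.norm_apply_le w i
    simpa using this
  have h4 : c * ‖w‖ ^ 2 ≤ ‖w‖ := h1.trans ((le_abs_self _).trans (h3 j))
  have h5 : ‖w‖ ≤ 1 / c := by
    rw [le_div_iff₀ hc]
    by_contra hcon
    push Not at hcon
    have h0 : 0 < ‖w‖ := by
      by_contra h0
      have : ‖w‖ = 0 := le_antisymm (not_lt.1 h0) (norm_nonneg _)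
      rw [this] at hcon
      linarith
    nlinarith
  rw [← hwi i]
  exact (h3 i).trans h5

theorem inv_sub_inv {A B : Matrix (Fin n) (Fin n) ℝ} (hA : A.PosDef) (hB : B.PosDef) :
    A⁻¹ - B⁻¹ = A⁻¹ * (B - A) * B⁻¹ := by
  have hdA : IsUnit A.det := (Matrix.isUnit_iff_isUnit_det A).1 hA.isUnit
  have hdB : IsUnit B.det := (Matrix.isUnit_iff_isUnit_det B).1 hB.isUnit
  rw [Matrix.mul_sub, Matrix.sub_mul, Matrix.nonsing_inv_mul _ hdA, Matrix.mul_assoc,
    Matrix.mul_nonsing_inv _ hdB]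
  simp

theorem abs_inv_sub_le {A B : Matrix (Fin n) (Fin n) ℝ} (hA : A.PosDef) (hB : B.PosDef) {c : ℝ}
    (hc : 0 < c) (h : ∀ v : E n, c * ‖v‖ ^ 2 ≤ qf A v) (h' : ∀ v : E n, c * ‖v‖ ^ 2 ≤ qf B v)
    {d : ℝ} (hd : ∀ i j, |A i j - B i j| ≤ d) (i j : Fin n) :
    |A⁻¹ i j - B⁻¹ i j| ≤ (n : ℝ) ^ 2 * (1 / c) ^ 2 * d := by
  have e : A⁻¹ i j - B⁻¹ i j = ∑ b, ∑ a, A⁻¹ i a * (B a b - A a b) * B⁻¹ b j := by
    have := congrFun (congrFun (inv_sub_inv hA hB) i) j
    rw [Matrix.sub_apply] at this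
    rw [this, Matrix.mul_apply]
    refine Finset.sum_congr rfl fun b _ => ?_
    rw [Matrix.mul_apply, Finset.sum_mul]
    rfl
  rw [e]
  have h0 : (0 : ℝ) < 1 / c := by positivity
  calc |∑ b, ∑ a, A⁻¹ i a * (B a b - A a b) * B⁻¹ b j|
      ≤ ∑ b, ∑ a, |A⁻¹ i a * (B a b - A a b) * B⁻¹ b j| :=
        (Finset.abs_sum_le_sum_abs _ _).trans
          (Finset.sum_le_sum fun b _ => Finset.abs_sum_le_sum_abs _ _)
    _ ≤ ∑ _b : Fin n, ∑ _a : Fin n, (1 / c) * d * (1 / c) := by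
        refine Finset.sum_le_sum fun b _ => Finset.sum_le_sum fun a _ => ?_
        rw [abs_mul, abs_mul]
        have h1 := abs_inv_le hA hc h i a
        have h2 := abs_inv_le hB hc h' b j
        have h3 : |B a b - A a b| ≤ d := by rw [abs_sub_comm]; exact hd a b
        exact mul_le_mul (mul_le_mul h1 h3 (abs_nonneg _) h0.le) h2 (abs_nonneg _)
          (mul_nonneg h0.le ((abs_nonneg _).trans h3))
    _ = (n : ℝ) ^ 2 * (1 / c) ^ 2 * d := by
        simp only [Finset.sum_const, Finset.card_univ, Fintype.card_fin, nsmul_eq_mul]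
        ring

/-! ### `τ` -/

variable {ψ V : E n → ℝ} {c C M : ℝ}

theorem hess_psi_posDef (h : MM ψ V c C M) (x : E n) : (hess ψ x).PosDef :=
  posDef_of_qf (hess_symm h.C2 x) h.c_pos (h.lower x)

theorem tau_posDef (h : MM ψ V c C M) (x : E n) : (tau ψ x).PosDef := (hess_psi_posDef h x).inv

theorem tau_symm (h : MM ψ V c C M) (x : E n) (i j : Fin n) : tau ψ x i j = tau ψ x j i := by
  have := (tau_posDef h x).isHermitian
  have h2 := congrFun (congrFun this j) i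
  simpa using h2

theorem tau_bdd (h : MM ψ V c C M) (x : E n) (i j : Fin n) : |tau ψ x i j| ≤ 1 / c :=
  abs_inv_le (hess_psi_posDef h x) h.c_pos (h.lower x) i j

theorem tau_lip (h : MM ψ V c C M) (x y : E n) (i j : Fin n) :
    |tau ψ x i j - tau ψ y i j| ≤ (n : ℝ) ^ 2 * (1 / c) ^ 2 * M * ‖x - y‖ := by
  have := abs_inv_sub_le (hess_psi_posDef h x) (hess_psi_posDef h y) h.c_pos (h.lower x) (h.lower y)
    (fun i j => h.lip i j x y) i j
  rw [mul_assoc]
  exact this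

theorem tau_continuous (h : MM ψ V c C M) (i j : Fin n) : Continuous (fun x => tau ψ x i j) := by
  have : LipschitzWith (Real.toNNReal ((n : ℝ) ^ 2 * (1 / c) ^ 2 * M)) (fun x => tau ψ x i j) := by
    refine LipschitzWith.of_dist_le' fun x y => ?_
    rw [Real.dist_eq, dist_eq_norm]
    exact tau_lip h x y i j
  exact this.continuous

end Vale.Agent.P227.M.Loc
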