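import Vale.Agent.P227.M.Loc.Ineq

/-! # P227/M/Loc/Main: the block LOC -/

open MeasureTheory

namespace Vale.Agent.P227.M.Loc

variable {n : ℕ} {ψ V : E n → ℝ} {c C M : ℝ}

theorem young {t : ℝ} (ht : 0 < t) (a b : ℝ) : 2 * (a * b) ≤ t * a ^ 2 + b ^ 2 / t := by
  have h : 0 ≤ (t * a - b) ^ 2 / t := by positivity
  have e : (t * a - b) ^ 2 / t = t * a ^ 2 - 2 * (a * b) + b ^ 2 / t := by
    field_simp
    ring
  linarith

theorem Ex_young (hR : Reg V c C) {f g : Fin n → E n → ℝ} (hf : ∀ b, Gm (f b)) (hg : ∀ b, Gm (g b))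
    {t : ℝ} (ht : 0 < t) :
    2 * Ex V (fun x => ∑ b, f b x * g b x)
      ≤ t * Ex V (fun x => ∑ b, f b x ^ 2) + Ex V (fun x => ∑ b, g b x ^ 2) / t := by
  have g1 : Gm (fun x => ∑ b, f b x * g b x) := Gm.fsum fun b => (hf b).mul (hg b)
  have g2 : Gm (fun x => ∑ b, f b x ^ 2) := Gm.fsum fun b => (hf b).sq
  have g3 : Gm (fun x => ∑ b, g b x ^ 2) := Gm.fsum fun b => (hg b).sq
  have h := Ex_mono hR (g1.const_mul 2) ((g2.const_mul t).add (g3.const_mul (1 / t))) fun x => by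
    rw [Finset.mul_sum, Finset.mul_sum, Finset.mul_sum, ← Finset.sum_add_distrib]
    refine Finset.sum_le_sum fun b _ => ?_
    have := young ht (f b x) (g b x)
    rw [one_div, inv_mul_eq_div]
    exact this
  rw [Ex_add hR (g2.const_mul t) (g3.const_mul (1 / t)), Ex_const_mul, Ex_const_mul, Ex_const_mul] at h
  rw [div_eq_inv_mul, ← one_div]
  exact h

theorem fld_sq_le (h : MM ψ V c C M) (f : E n → ℝ) (x : E n) :
    ∑ b, fld ψ f b x ^ 2 ≤ (n * (n * (1 / c) ^ 2)) * ∑ b, pd b f x ^ 2 := by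
  have hc := h.c_pos
  have h1 : ∀ b, fld ψ f b x ^ 2 ≤ (n * (1 / c) ^ 2) * ∑ j, pd j f x ^ 2 := fun b => by
    have h2 := Finset.sum_mul_sq_le_sq_mul_sq Finset.univ (fun j => tau ψ x b j) (fun j => pd j f x)
    refine h2.trans ?_
    refine mul_le_mul_of_nonneg_right ?_ (Finset.sum_nonneg fun j _ => sq_nonneg _)
    calc ∑ j, tau ψ x b j ^ 2 ≤ ∑ _j : Fin n, (1 / c) ^ 2 := by
          refine Finset.sum_le_sum fun j _ => ?_
          rw [← sq_abs]
          exact pow_le_pow_left₀ (abs_nonneg _) (tau_bdd h x b j) 2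
      _ = _ := by simp
  calc ∑ b, fld ψ f b x ^ 2 ≤ ∑ _b : Fin n, (n * (1 / c) ^ 2) * ∑ j, pd j f x ^ 2 :=
        Finset.sum_le_sum fun b _ => h1 b
    _ = _ := by
        simp only [Finset.sum_const, Finset.card_univ, Fintype.card_fin, nsmul_eq_mul]
        ring

/-! ### the right hand side is even and has quadratic growth -/

theorem rad_even {W : E n → ℝ} (hW : Piece W) (x : E n) : rad W (-x) = rad W x := by
  have h : ∀ i, pd i W (-x) = - pd i W x := fun i => by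
    have h1 : (fun y => W (-y)) = W := funext hW.even
    have hd : Differentiable ℝ W := hW.smooth.differentiable (by simp)
    have h2 : HasFDerivAt (fun y => W (-y)) (-(fderiv ℝ W (-x))) x := by
      have h3 : HasFDerivAt (fun y => W (-y))
          ((fderiv ℝ W (-x)).comp (-ContinuousLinearMap.id ℝ (E n))) x :=
        (hd (-x)).hasFDerivAt.comp x (hasFDerivAt_id x).neg
      have e : (fderiv ℝ W (-x)).comp (-ContinuousLinearMap.id ℝ (E n)) = -(fderiv ℝ W (-x)) := by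
        ext v
        simp
      rw [e] at h3
      exact h3
    rw [h1] at h2
    unfold pd
    rw [h2.fderiv]
    simp
  unfold rad
  refine Finset.sum_congr rfl fun i _ => ?_
  rw [h i]
  simp

/-- at most quadratic growth -/
def Q2 (f : E n → ℝ) : Prop := ∃ B, 0 ≤ B ∧ ∀ x, |f x| ≤ B * (1 + ‖x‖ ^ 2)

theorem Q2.add {f g : E n → ℝ} (hf : Q2 f) (hg : Q2 g) : Q2 (fun x => f x + g x) := by
  obtain ⟨B, hB, h1⟩ := hf
  obtain ⟨B', hB', h2⟩ := hg
  refine ⟨B + B', by positivity, fun x => ?_⟩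
  have := abs_add_le (f x) (g x)
  have := h1 x
  have := h2 x
  rw [add_mul]
  linarith

theorem Q2.const (a : ℝ) : Q2 (fun _ : E n => a) := by
  refine ⟨|a|, abs_nonneg _, fun x => ?_⟩
  nlinarith [abs_nonneg a, sq_nonneg ‖x‖, mul_nonneg (abs_nonneg a) (sq_nonneg ‖x‖)]

theorem Q2.const_mul {f : E n → ℝ} (hf : Q2 f) (a : ℝ) : Q2 (fun x => a * f x) := by
  obtain ⟨B, hB, h1⟩ := hf
  refine ⟨|a| * B, by positivity, fun x => ?_⟩
  rw [abs_mul, mul_assoc]
  exact mul_le_mul_of_nonneg_left (h1 x) (abs_nonneg _)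

theorem Q2.fsum {ι : Type*} [Fintype ι] {f : ι → E n → ℝ} (hf : ∀ i, Q2 (f i)) :
    Q2 (fun x => ∑ i, f i x) := by
  classical
  have : ∀ s : Finset ι, Q2 (fun x => ∑ i ∈ s, f i x) := fun s => by
    induction s using Finset.induction_on with
    | empty => simpa using Q2.const (n := n) 0
    | insert a s ha ih =>
      have h := (hf a).add ih
      simpa [Finset.sum_insert ha] using h
  exact this _

theorem q2_rad {W : E n → ℝ} (hW : Piece W) : Q2 (rad W) := by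
  refine Q2.fsum fun i => ?_
  obtain ⟨B, hB⟩ := hW.bdd 2 le_rfl
  have hB0 : 0 ≤ B := (norm_nonneg _).trans (hB 0)
  refine ⟨‖fderiv ℝ W 0‖ + B, by positivity, fun x => ?_⟩
  have h1 := abs_pd_le_norm W x i
  have h2 := norm_fderiv_le hW.C2 hB x
  have h3 := abs_coord_le x i
  have h4 := norm_nonneg x
  have h5 := norm_nonneg (fderiv ℝ W 0)
  rw [abs_mul]
  calc |x i| * |pd i W x| ≤ ‖x‖ * (‖fderiv ℝ W 0‖ + B * ‖x‖) :=
        mul_le_mul h3 (h1.trans h2) (abs_nonneg _) h4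
    _ ≤ _ := by
        have h6 : ‖x‖ ≤ 1 + ‖x‖ ^ 2 := by nlinarith [sq_nonneg (‖x‖ - 1)]
        have h7 := mul_le_mul_of_nonneg_left h6 h5
        nlinarith

/-- the local inequality for a moment map measure `e^{-V}` -/
theorem local_of_mm (hst : StmtStein) (hibp : StmtIBP) (hdiv : StmtDiv) (hkey : StmtKey)
    (hlin : StmtLin) (hV : Nice V c C) (h : MM ψ V c C M) {J : ℕ} {W : Fin J → E n → ℝ}
    (hW : ∀ j, Piece (W j)) (hVW : V = fun x => ∑ j, W j x) (ρ : Fin J → ℝ) :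
    Ex V (fun x => (∑ j, ρ j * ∑ i, x i * pd i (W j) x) ^ 2)
      - (Ex V (fun x => ∑ j, ρ j * ∑ i, x i * pd i (W j) x)) ^ 2
      ≤ ∑ j, ρ j ^ 2 * Ex V (fun x => (∑ i, x i * pd i (W j) x) + qf (hess (W j) x) x) := by
  have hR : Reg V c C := hV.toReg
  have hc := hV.c_pos
  set D := ∑ j, ρ j ^ 2 * Ex V (fun x => (∑ i, x i * pd i (W j) x) + qf (hess (W j) x) x) with hD
  change Ex V (fun x => ff W ρ x ^ 2) - (Ex V (ff W ρ)) ^ 2 ≤ D
  set m := Ex V (ff W ρ) with hm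
  have gf : Gm (ff W ρ) := gm_ff hW ρ
  -- the right hand side of the linear equation
  have hr0 : Ex V (fun x => ff W ρ x - m) = 0 := by
    rw [Ex_sub hR gf (Gm.const m), Ex_const hR, ← hm, sub_self]
  have hrc : Continuous (fun x => ff W ρ x - m) := by
    refine Continuous.sub ?_ continuous_const
    refine continuous_finsetSum _ fun j _ => continuous_const.mul ?_
    exact (rad_smooth (hW j).smooth).continuous
  have hre : ∀ x, ff W ρ (-x) - m = ff W ρ x - m := fun x => by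
    congr 1
    exact Finset.sum_congr rfl fun j _ => congrArg (ρ j * ·) (rad_even (hW j) x)
  have hrb : ∃ B, ∀ x, |ff W ρ x - m| ≤ B * (1 + ‖x‖ ^ 2) := by
    have h1 : Q2 (ff W ρ) := Q2.fsum fun j => (q2_rad (hW j)).const_mul (ρ j)
    obtain ⟨B, -, hB⟩ := h1.add (Q2.const (-m))
    exact ⟨B, fun x => by simpa [sub_eq_add_neg] using hB x⟩
  refine le_of_forall_pos_le_add fun ε hε => ?_
  obtain ⟨B, hB⟩ := hlin n ψ V c C M hV h (fun x => ff W ρ x - m) hrc hre hrb hr0 (ε / 3) (by positivity)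
  set A := Ex V (fun x => ∑ b, (∑ j, ρ j * pd b (W j) x) ^ 2) with hA
  have hA0 : 0 ≤ A := Ex_nonneg hR fun x => Finset.sum_nonneg fun b _ => sq_nonneg _
  set κ : ℝ := n * (n * (1 / c) ^ 2) with hκ
  have hκ0 : 0 ≤ κ := by positivity
  -- choose t, δ
  have hBpos : 0 < A + |B| + 1 := by positivity
  set t := ε / 3 / (A + |B| + 1) with ht
  have ht0 : 0 < t := by positivity
  set δ := t * (ε / 3) / (2 * κ + 1) with hδ
  have hδ0 : 0 < δ := by positivity
  obtain ⟨F, u, hF, hu, h1, h2, h3⟩ := hB δ hδ0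
  have hmain := main_ineq hst hibp hdiv hkey hV h hW hVW ρ hF hu
  have hsh : ∀ b, Gm (fld ψ (hh ψ F u) b) := fun b => gm_fld h (bl_hh h hF hu) b
  have hG : ∀ b, Gm (fun x => ∑ j, ρ j * pd b (W j) x) := fun b =>
    Gm.fsum fun j => (Gm.of_gr ((hW j).gr_pd b)).const_mul (ρ j)
  have hL : ∀ b, Gm (Lop ψ (pd b F)) := fun b => gm_Lop h (test_pd hF b)
  have e2 := Ex_young hR hG hsh ht0
  have e1 := Ex_young hR hL hsh ht0
  have e3 : Ex V (fun x => ∑ b, fld ψ (hh ψ F u) b x ^ 2) ≤ κ * δ := by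
    have g1 : Gm (fun x => ∑ b, fld ψ (hh ψ F u) b x ^ 2) := Gm.fsum fun b => (hsh b).sq
    have g2 : Gm (fun x => ∑ b, pd b (hh ψ F u) x ^ 2) :=
      Gm.fsum fun b => (gm_pd_of_bl (bl_hh h hF hu) b).sq
    have := Ex_mono hR g1 (g2.const_mul κ) fun x => fld_sq_le h (hh ψ F u) x
    rw [Ex_const_mul] at this
    exact this.trans (mul_le_mul_of_nonneg_left h2 hκ0)
  have e1' : Ex V (fun x => ∑ b, Lop ψ (pd b F) x * fld ψ (hh ψ F u) b x)
      = Ex V (fun x => ∑ b, fld ψ (hh ψ F u) b x * Lop ψ (pd b F) x) := by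
    simp only [mul_comm]
  rw [e1'] at e1
  -- `E Lu = 0`
  have gu := gm_Lop h hu
  have hu0 : Ex V (Lop ψ u) = 0 := by
    have := hibp n ψ V c C M hV h u (fun _ => 1) hu contDiff_const
    have e : ∀ b x, pd b (fun _ : E n => (1 : ℝ)) x = 0 := fun b x => by simp [pd]
    simp only [e, zero_mul, Finset.sum_const_zero, mul_one] at this
    rw [Ex_neg, Ex_const hR] at this
    linarith
  have hsq : Ex V (fun x => (Lop ψ u x + (ff W ρ x - m)) ^ 2)
      = Ex V (fun x => Lop ψ u x ^ 2) + 2 * Ex V (fun x => Lop ψ u x * ff W ρ x)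
        + (Ex V (fun x => ff W ρ x ^ 2) - m ^ 2) := by
    have e : (fun x => (Lop ψ u x + (ff W ρ x - m)) ^ 2)
        = fun x => (((Lop ψ u x ^ 2 + 2 * (Lop ψ u x * ff W ρ x)) + ff W ρ x ^ 2)
          + (-(2 * m)) * Lop ψ u x) + ((-(2 * m)) * ff W ρ x + m ^ 2) := by
      funext x
      ring
    rw [e, Ex_add hR ((((gu.sq).add ((gu.mul gf).const_mul 2)).add gf.sq).add (gu.const_mul _))
      ((gf.const_mul _).add (Gm.const _)),
      Ex_add hR (((gu.sq).add ((gu.mul gf).const_mul 2)).add gf.sq) (gu.const_mul _),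
      Ex_add hR ((gu.sq).add ((gu.mul gf).const_mul 2)) gf.sq,
      Ex_add hR gu.sq ((gu.mul gf).const_mul 2), Ex_add hR (gf.const_mul _) (Gm.const _),
      Ex_const_mul, Ex_const_mul, Ex_const_mul, Ex_const hR, hu0, ← hm]
    ring
  have h3' : Ex V (fun x => ∑ b, Lop ψ (pd b F) x ^ 2) ≤ |B| := h3.trans (le_abs_self B)
  have e4 : t * A + t * |B| ≤ ε / 3 := by
    have h7 : t * (A + |B| + 1) = ε / 3 := by
      rw [ht]
      exact div_mul_cancel₀ _ hBpos.ne'
    linarith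
  have e5 : 2 * (κ * δ / t) ≤ ε / 3 := by
    rw [hδ]
    have : 2 * (κ * (t * (ε / 3) / (2 * κ + 1)) / t) = (2 * κ) / (2 * κ + 1) * (ε / 3) := by
      field_simp
    rw [this]
    have h6 : (2 * κ) / (2 * κ + 1) ≤ 1 := by
      rw [div_le_one (by positivity)]
      linarith
    have := mul_le_mul_of_nonneg_right h6 (by positivity : 0 ≤ ε / 3)
    linarith
  have e6 : Ex V (fun x => ∑ b, fld ψ (hh ψ F u) b x ^ 2) / t ≤ κ * δ / t :=
    div_le_div_of_nonneg_right e3 ht0.le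
  have e7 : t * Ex V (fun x => ∑ b, Lop ψ (pd b F) x ^ 2) ≤ t * |B| :=
    mul_le_mul_of_nonneg_left h3' ht0.le
  have h1' : Ex V (fun x => (Lop ψ u x + (ff W ρ x - m)) ^ 2) ≤ ε / 3 := h1
  rw [hsq] at h1'
  linarith

/-- for every `ψ` satisfying the moment map conditions, the local inequality for `V`, uniformly in
the decomposition of `V` (no existence statement is used) -/
theorem loc_of_mm (hst : StmtStein) (hibp : StmtIBP) (hdiv : StmtDiv) (hkey : StmtKey)
    (hlin : StmtLin) : ∀ (n : ℕ) (ψ V : E n → ℝ) (c C M : ℝ), Nice V c C → MM ψ V c C M →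
    ∀ (J : ℕ) (W : Fin J → E n → ℝ) (ρ : Fin J → ℝ), (∀ j, Piece (W j)) →
      (V = fun x => ∑ j, W j x) →
      Ex V (fun x => (∑ j, ρ j * ∑ i, x i * pd i (W j) x) ^ 2)
        - (Ex V (fun x => ∑ j, ρ j * ∑ i, x i * pd i (W j) x)) ^ 2
        ≤ ∑ j, ρ j ^ 2 * Ex V (fun x => (∑ i, x i * pd i (W j) x) + qf (hess (W j) x) x) :=
  fun _ _ _ _ _ _ hV h _ _ ρ hW hVW => local_of_mm hst hibp hdiv hkey hlin hV h hW hVW ρ

end Vale.Agent.P227.M.Loc

namespace Vale.Agent.P227.M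

/-- block LOC -/
theorem stmtLocal_of (hst : StmtStein) (hibp : StmtIBP) (hdiv : StmtDiv) (hkey : StmtKey)
    (hlin : StmtLin) (hmm : StmtMM) : StmtLocal := by
  intro n J W ρ c C hW hV
  obtain ⟨ψ, M, h⟩ := hmm n _ c C hV
  exact Loc.local_of_mm hst hibp hdiv hkey hlin hV h hW rfl ρ

end Vale.Agent.P227.M
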