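import Mathlib

/-! # P227, block LOC: abstract Cauchy-Schwarz step

`g j = <grad V_j, x>`, `c j = v''(w_j) ≥ 0` (so `D^2 V_j = c j • ν_j ν_j^T`), `p j = <x, ν_j>`,
`σ j = <s, ν_j>`, `a j = <τ ν_j, ν_j>`, `b j = <K ν_j, ν_j>`, `d j = <K τ⁻¹ K ν_j, ν_j>`. -/

open MeasureTheory

namespace Vale.Agent.P227.M

/-- the pointwise quadratic form is nonnegative -/
theorem quad_nonneg {a b d r : ℝ} (ha : 0 ≤ a) (hd : 0 ≤ d) (h : b ^ 2 ≤ a * d) :
    0 ≤ r ^ 2 * a - 2 * r * b + d := by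
  rcases ha.eq_or_lt with h0 | h0
  · have hb : b = 0 := by
      rw [← h0, zero_mul] at h
      exact pow_eq_zero_iff (two_ne_zero) |>.mp (le_antisymm h (sq_nonneg b))
    rw [← h0, hb]
    simpa using hd
  · have h1 : 0 ≤ a * (r ^ 2 * a - 2 * r * b + d) := by
      nlinarith [sq_nonneg (r * a - b)]
    exact nonneg_of_mul_nonneg_right h1 h0

/-- one approximate certificate gives the inequality up to the errors `ε`, `η` -/
theorem loc_eps {Ω : Type*} [MeasurableSpace Ω] {μ : Measure Ω} [IsProbabilityMeasure μ]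
    {J : Type*} [Fintype J] (ρ : J → ℝ) (g c p σ a b d : J → Ω → ℝ) (w : Ω → ℝ) {ε η : ℝ}
    (hc : ∀ j x, 0 ≤ c j x) (ha : ∀ j x, 0 ≤ a j x) (hd : ∀ j x, 0 ≤ d j x)
    (hb : ∀ j x, b j x ^ 2 ≤ a j x * d j x)
    (ig : ∀ j, MemLp (g j) 2 μ) (iw : MemLp w 2 μ)
    (ica : ∀ j, Integrable (fun x => c j x * a j x) μ)
    (icb : ∀ j, Integrable (fun x => c j x * b j x) μ)
    (icd : ∀ j, Integrable (fun x => c j x * d j x) μ)
    (icp : ∀ j, Integrable (fun x => c j x * p j x ^ 2) μ)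
    (ics : ∀ j, Integrable (fun x => c j x * σ j x ^ 2) μ)
    (icps : ∀ j, Integrable (fun x => c j x * (p j x * σ j x)) μ)
    (h1 : ∀ j, ∫ x, g j x ∂μ = ∫ x, c j x * a j x ∂μ)
    (h2 : ∀ j, |∫ x, g j x * w x ∂μ -
      (∫ x, c j x * b j x ∂μ + ∫ x, c j x * (p j x * σ j x) ∂μ)| ≤ η)
    (h3 : ∑ j, (∫ x, c j x * σ j x ^ 2 ∂μ + ∫ x, c j x * d j x ∂μ) ≤ ∫ x, w x ^ 2 ∂μ + η)
    (h4 : ∫ x, w x ∂μ = 0)
    (h5 : ∫ x, (w x - ((∑ j, ρ j * g j x) - ∫ y, ∑ j, ρ j * g j y ∂μ)) ^ 2 ∂μ ≤ ε) :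
    ∫ x, ((∑ j, ρ j * g j x) - ∫ y, ∑ j, ρ j * g j y ∂μ) ^ 2 ∂μ ≤
      ∑ j, ρ j ^ 2 * (∫ x, g j x ∂μ + ∫ x, c j x * p j x ^ 2 ∂μ) + ε +
        (1 + 2 * ∑ j, |ρ j|) * η := by
  set f : Ω → ℝ := fun x => ∑ j, ρ j * g j x with hf
  have if2 : MemLp f 2 μ := memLp_finsetSum _ fun j _ => (ig j).const_mul (ρ j)
  set m : ℝ := ∫ y, f y ∂μ with hm
  have ifm : MemLp (fun x => f x - m) 2 μ := if2.sub (memLp_const m)
  have i1 : Integrable (fun x => (f x - m) ^ 2) μ := ifm.integrable_sq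
  have i2 : Integrable (fun x => w x ^ 2) μ := iw.integrable_sq
  have i3 : Integrable (fun x => f x * w x) μ := if2.integrable_mul iw
  have i3' : Integrable (fun x => (f x - m) * w x) μ := ifm.integrable_mul iw
  have iw1 : Integrable w μ := iw.integrable (by norm_num)
  have igw : ∀ j, Integrable (fun x => g j x * w x) μ := fun j => (ig j).integrable_mul iw
  -- expansion of the square
  have e1 : ∫ x, (w x - (f x - m)) ^ 2 ∂μ =
      ∫ x, w x ^ 2 ∂μ - 2 * ∫ x, f x * w x ∂μ + ∫ x, (f x - m) ^ 2 ∂μ := by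
    have h6 : ∀ x, (w x - (f x - m)) ^ 2 =
        (w x ^ 2 - 2 * (f x * w x) + 2 * m * w x) + (f x - m) ^ 2 := fun x => by ring
    have l1 : Integrable (fun x => w x ^ 2 - 2 * (f x * w x)) μ := i2.sub (i3.const_mul 2)
    have l2 : Integrable (fun x => w x ^ 2 - 2 * (f x * w x) + 2 * m * w x) μ :=
      l1.add (iw1.const_mul (2 * m))
    simp_rw [h6]
    rw [integral_add l2 i1, integral_add l1 (iw1.const_mul (2 * m)),
      integral_sub i2 (i3.const_mul 2), integral_const_mul, integral_const_mul, h4]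
    ring
  have e2 : |∫ x, f x * w x ∂μ -
      ∑ j, ρ j * (∫ x, c j x * b j x ∂μ + ∫ x, c j x * (p j x * σ j x) ∂μ)| ≤
      (∑ j, |ρ j|) * η := by
    have h7 : ∀ x, f x * w x = ∑ j, ρ j * (g j x * w x) := fun x => by
      rw [hf, Finset.sum_mul]
      exact Finset.sum_congr rfl fun j _ => by ring
    simp_rw [h7]
    rw [integral_finsetSum _ fun j _ => (igw j).const_mul (ρ j), ← Finset.sum_sub_distrib,
      Finset.sum_mul]
    refine (Finset.abs_sum_le_sum_abs _ _).trans (Finset.sum_le_sum fun j _ => ?_)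
    rw [integral_const_mul, ← mul_sub, abs_mul]
    exact mul_le_mul_of_nonneg_left (h2 j) (abs_nonneg _)
  -- the pointwise inequality
  have key : 0 ≤ ∑ j, (ρ j ^ 2 * (∫ x, g j x ∂μ + ∫ x, c j x * p j x ^ 2 ∂μ) -
      2 * (ρ j * (∫ x, c j x * b j x ∂μ + ∫ x, c j x * (p j x * σ j x) ∂μ)) +
      (∫ x, c j x * σ j x ^ 2 ∂μ + ∫ x, c j x * d j x ∂μ)) := by
    refine Finset.sum_nonneg fun j _ => ?_
    rw [h1 j]
    have h8 : ∫ x, (ρ j ^ 2 * (c j x * a j x) + ρ j ^ 2 * (c j x * p j x ^ 2) -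
        2 * ρ j * (c j x * b j x) - 2 * ρ j * (c j x * (p j x * σ j x)) +
        c j x * σ j x ^ 2 + c j x * d j x) ∂μ =
        ρ j ^ 2 * ∫ x, c j x * a j x ∂μ + ρ j ^ 2 * ∫ x, c j x * p j x ^ 2 ∂μ -
        2 * ρ j * ∫ x, c j x * b j x ∂μ - 2 * ρ j * ∫ x, c j x * (p j x * σ j x) ∂μ +
        ∫ x, c j x * σ j x ^ 2 ∂μ + ∫ x, c j x * d j x ∂μ := by
      have k1 := (ica j).const_mul (ρ j ^ 2)
      have k2 := (icp j).const_mul (ρ j ^ 2)
      have k3 := (icb j).const_mul (2 * ρ j)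
      have k4 := (icps j).const_mul (2 * ρ j)
      have k5 : Integrable (fun x => ρ j ^ 2 * (c j x * a j x) + ρ j ^ 2 * (c j x * p j x ^ 2)) μ :=
        k1.add k2
      have k6 : Integrable (fun x => ρ j ^ 2 * (c j x * a j x) + ρ j ^ 2 * (c j x * p j x ^ 2) -
        2 * ρ j * (c j x * b j x)) μ := k5.sub k3
      have k7 : Integrable (fun x => ρ j ^ 2 * (c j x * a j x) + ρ j ^ 2 * (c j x * p j x ^ 2) -
        2 * ρ j * (c j x * b j x) - 2 * ρ j * (c j x * (p j x * σ j x))) μ := k6.sub k4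
      have k8 : Integrable (fun x => ρ j ^ 2 * (c j x * a j x) + ρ j ^ 2 * (c j x * p j x ^ 2) -
        2 * ρ j * (c j x * b j x) - 2 * ρ j * (c j x * (p j x * σ j x)) +
        c j x * σ j x ^ 2) μ := k7.add (ics j)
      rw [integral_add k8 (icd j), integral_add k7 (ics j), integral_sub k6 k4,
        integral_sub k5 k3, integral_add k1 k2, integral_const_mul, integral_const_mul,
        integral_const_mul, integral_const_mul]
    have h9 : 0 ≤ ∫ x, (ρ j ^ 2 * (c j x * a j x) + ρ j ^ 2 * (c j x * p j x ^ 2) -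
        2 * ρ j * (c j x * b j x) - 2 * ρ j * (c j x * (p j x * σ j x)) +
        c j x * σ j x ^ 2 + c j x * d j x) ∂μ := by
      refine integral_nonneg fun x => ?_
      have q1 := quad_nonneg (r := ρ j) (ha j x) (hd j x) (hb j x)
      have q2 := mul_nonneg (hc j x) q1
      have q3 := mul_nonneg (hc j x) (sq_nonneg (ρ j * p j x - σ j x))
      change (0 : ℝ) ≤ _
      nlinarith [q2, q3]
    linarith [h8, h9]
  have key2 : 0 ≤ ∑ j, ρ j ^ 2 * (∫ x, g j x ∂μ + ∫ x, c j x * p j x ^ 2 ∂μ) -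
      2 * (∑ j, ρ j * (∫ x, c j x * b j x ∂μ + ∫ x, c j x * (p j x * σ j x) ∂μ)) +
      (∫ x, w x ^ 2 ∂μ + η) := by
    rw [Finset.sum_add_distrib, Finset.sum_sub_distrib, ← Finset.mul_sum] at key
    linarith [key, h3]
  have e3 := abs_le.mp e2
  nlinarith [e1, h5, key2, e3.1, e3.2]

/-- the inequality from a family of approximate certificates -/
theorem loc_final {Ω : Type*} [MeasurableSpace Ω] {μ : Measure Ω} [IsProbabilityMeasure μ]
    {J : Type*} [Fintype J] (ρ : J → ℝ) (g c p : J → Ω → ℝ)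
    (hc : ∀ j x, 0 ≤ c j x) (ig : ∀ j, MemLp (g j) 2 μ)
    (icp : ∀ j, Integrable (fun x => c j x * p j x ^ 2) μ)
    (H : ∀ ε > 0, ∃ (σ a b d : J → Ω → ℝ) (w : Ω → ℝ),
      (∀ j x, 0 ≤ a j x) ∧ (∀ j x, 0 ≤ d j x) ∧ (∀ j x, b j x ^ 2 ≤ a j x * d j x) ∧
      MemLp w 2 μ ∧ (∀ j, Integrable (fun x => c j x * a j x) μ) ∧
      (∀ j, Integrable (fun x => c j x * b j x) μ) ∧
      (∀ j, Integrable (fun x => c j x * d j x) μ) ∧
      (∀ j, Integrable (fun x => c j x * σ j x ^ 2) μ) ∧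
      (∀ j, Integrable (fun x => c j x * (p j x * σ j x)) μ) ∧
      (∀ j, ∫ x, g j x ∂μ = ∫ x, c j x * a j x ∂μ) ∧
      (∀ j, |∫ x, g j x * w x ∂μ -
        (∫ x, c j x * b j x ∂μ + ∫ x, c j x * (p j x * σ j x) ∂μ)| ≤ ε) ∧
      (∑ j, (∫ x, c j x * σ j x ^ 2 ∂μ + ∫ x, c j x * d j x ∂μ) ≤ ∫ x, w x ^ 2 ∂μ + ε) ∧
      ∫ x, w x ∂μ = 0 ∧
      ∫ x, (w x - ((∑ j, ρ j * g j x) - ∫ y, ∑ j, ρ j * g j y ∂μ)) ^ 2 ∂μ ≤ ε) :
    ∫ x, ((∑ j, ρ j * g j x) - ∫ y, ∑ j, ρ j * g j y ∂μ) ^ 2 ∂μ ≤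
      ∑ j, ρ j ^ 2 * (∫ x, g j x ∂μ + ∫ x, c j x * p j x ^ 2 ∂μ) := by
  set M : ℝ := 2 + 2 * ∑ j, |ρ j| with hM
  have hM0 : 0 < M := by
    have : 0 ≤ ∑ j, |ρ j| := Finset.sum_nonneg fun j _ => abs_nonneg _
    positivity
  refine le_of_forall_pos_le_add fun ε hε => ?_
  obtain ⟨σ, a, b, d, w, ha, hd, hb, iw, ica, icb, icd, ics, icps, h1, h2, h3, h4, h5⟩ :=
    H (ε / M) (div_pos hε hM0)
  have h6 := loc_eps ρ g c p σ a b d w hc ha hd hb ig iw ica icb icd icp ics icps h1 h2 h3 h4 h5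
  have h7 : ε / M + (1 + 2 * ∑ j, |ρ j|) * (ε / M) = ε := by
    have : 1 + 2 * ∑ j, |ρ j| = M - 1 := by rw [hM]; ring
    rw [this]
    field_simp
    ring
  linarith

end Vale.Agent.P227.M
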