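import Vale.Agent.P227.M.Bas
import Vale.Agent.P227.M.Loc.TauB

/-! # P227/M/Loc/Gm: measurable functions of polynomial growth, the expectation `Ex` on them -/

open MeasureTheory

namespace Vale.Agent.P227.M.Loc

variable {n : ℕ}

/-- measurable functions of polynomial growth -/
def Gm (f : E n → ℝ) : Prop :=
  AEStronglyMeasurable f volume ∧ ∃ (B : ℝ) (k : ℕ), 0 ≤ B ∧ ∀ x, |f x| ≤ B * (1 + ‖x‖) ^ k

theorem Gm.of_gr {f : E n → ℝ} (h : Gr f) : Gm f := ⟨h.1.aestronglyMeasurable, h.2⟩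

theorem Gm.of_bound {f : E n → ℝ} (hf : AEStronglyMeasurable f volume) {B : ℝ}
    (hB : ∀ x, |f x| ≤ B) : Gm f := by
  refine ⟨hf, |B|, 0, abs_nonneg _, fun x => ?_⟩
  simpa using (hB x).trans (le_abs_self B)

theorem Gm.const (c : ℝ) : Gm (fun _ : E n => c) := Gm.of_gr (Gr.const c)

theorem Gm.coord (i : Fin n) : Gm (fun x : E n => x i) := Gm.of_gr (Gr.coord i)

theorem Gm.add {f g : E n → ℝ} (hf : Gm f) (hg : Gm g) : Gm (fun x => f x + g x) := by
  obtain ⟨hfc, B, k, hB, hb⟩ := hf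
  obtain ⟨hgc, D, l, hD, hd⟩ := hg
  refine ⟨hfc.add hgc, B + D, k + l, add_nonneg hB hD, fun x => ?_⟩
  have h1 := one_le_one_add_norm x
  have hk : (1 + ‖x‖) ^ k ≤ (1 + ‖x‖) ^ (k + l) := pow_le_pow_right₀ h1 (Nat.le_add_right _ _)
  have hl : (1 + ‖x‖) ^ l ≤ (1 + ‖x‖) ^ (k + l) := pow_le_pow_right₀ h1 (Nat.le_add_left _ _)
  calc |f x + g x| ≤ |f x| + |g x| := abs_add_le _ _
    _ ≤ B * (1 + ‖x‖) ^ k + D * (1 + ‖x‖) ^ l := add_le_add (hb x) (hd x)
    _ ≤ B * (1 + ‖x‖) ^ (k + l) + D * (1 + ‖x‖) ^ (k + l) := by gcongr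
    _ = _ := by ring

theorem Gm.mul {f g : E n → ℝ} (hf : Gm f) (hg : Gm g) : Gm (fun x => f x * g x) := by
  obtain ⟨hfc, B, k, hB, hb⟩ := hf
  obtain ⟨hgc, D, l, hD, hd⟩ := hg
  refine ⟨hfc.mul hgc, B * D, k + l, mul_nonneg hB hD, fun x => ?_⟩
  rw [abs_mul, pow_add]
  calc |f x| * |g x| ≤ (B * (1 + ‖x‖) ^ k) * (D * (1 + ‖x‖) ^ l) :=
        mul_le_mul (hb x) (hd x) (abs_nonneg _) (mul_nonneg hB (pow_nonneg (by positivity) _))
    _ = _ := by ring

theorem Gm.const_mul {f : E n → ℝ} (hf : Gm f) (c : ℝ) : Gm (fun x => c * f x) :=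
  (Gm.const c).mul hf

theorem Gm.neg {f : E n → ℝ} (hf : Gm f) : Gm (fun x => -f x) := by
  have h := hf.const_mul (-1)
  simpa using h

theorem Gm.sub {f g : E n → ℝ} (hf : Gm f) (hg : Gm g) : Gm (fun x => f x - g x) := by
  have h := hf.add hg.neg
  simpa [sub_eq_add_neg] using h

theorem Gm.sq {f : E n → ℝ} (hf : Gm f) : Gm (fun x => f x ^ 2) := by
  have h := hf.mul hf
  simpa [pow_two] using h

theorem Gm.sum {ι : Type*} (s : Finset ι) {f : ι → E n → ℝ} (hf : ∀ i ∈ s, Gm (f i)) :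
    Gm (fun x => ∑ i ∈ s, f i x) := by
  classical
  induction s using Finset.induction_on with
  | empty => simpa using Gm.const (n := n) 0
  | insert a s ha ih =>
    have h := (hf a (Finset.mem_insert_self a s)).add
      (ih fun i hi => hf i (Finset.mem_insert_of_mem hi))
    simpa [Finset.sum_insert ha] using h

theorem Gm.fsum {ι : Type*} [Fintype ι] {f : ι → E n → ℝ} (hf : ∀ i, Gm (f i)) :
    Gm (fun x => ∑ i, f i x) := Gm.sum _ fun i _ => hf i

section Ex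

variable {V : E n → ℝ} {c C : ℝ}

theorem Gm.integrable (h : Reg V c C) {f : E n → ℝ} (hf : Gm f) :
    Integrable (fun x => f x * Real.exp (-V x)) := by
  obtain ⟨hfm, B, k, hB, hb⟩ := hf
  have h1 : Gr (fun x : E n => B * (1 + ‖x‖) ^ k) :=
    (Gr.const B).mul (((Gr.const 1).add Gr.norm).pow k)
  refine (h.integrable_gr h1).mono (hfm.mul (Real.continuous_exp.comp h.cont.neg).aestronglyMeasurable)
    (Filter.Eventually.of_forall fun x => ?_)
  rw [norm_mul, norm_mul]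
  refine mul_le_mul_of_nonneg_right ?_ (norm_nonneg _)
  rw [Real.norm_eq_abs, Real.norm_eq_abs]
  exact (hb x).trans (le_abs_self _)

theorem Ex_add (h : Reg V c C) {f g : E n → ℝ} (hf : Gm f) (hg : Gm g) :
    Ex V (fun x => f x + g x) = Ex V f + Ex V g := by
  unfold Ex
  rw [← add_div, ← integral_add (hf.integrable h) (hg.integrable h)]
  simp only [add_mul]

theorem Ex_const_mul (a : ℝ) (f : E n → ℝ) : Ex V (fun x => a * f x) = a * Ex V f := by
  unfold Ex
  rw [← mul_div_assoc, ← integral_const_mul]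
  simp only [mul_assoc]

theorem Ex_neg (f : E n → ℝ) : Ex V (fun x => -f x) = -Ex V f := by
  have := Ex_const_mul (V := V) (-1) f
  simpa using this

theorem Ex_sub (h : Reg V c C) {f g : E n → ℝ} (hf : Gm f) (hg : Gm g) :
    Ex V (fun x => f x - g x) = Ex V f - Ex V g := by
  have := Ex_add h hf hg.neg
  rw [Ex_neg] at this
  simpa [sub_eq_add_neg] using this

theorem Ex_sum (h : Reg V c C) {ι : Type*} (s : Finset ι) {f : ι → E n → ℝ}
    (hf : ∀ i ∈ s, Gm (f i)) : Ex V (fun x => ∑ i ∈ s, f i x) = ∑ i ∈ s, Ex V (f i) := by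
  unfold Ex
  rw [← Finset.sum_div, ← integral_finsetSum s fun i hi => (hf i hi).integrable h]
  simp only [Finset.sum_mul]

theorem Ex_one (h : Reg V c C) : Ex V (fun _ => 1) = 1 := by
  unfold Ex
  simp only [one_mul]
  exact div_self h.Z_pos.ne'

theorem Ex_const (h : Reg V c C) (a : ℝ) : Ex V (fun _ => a) = a := by
  have := Ex_const_mul (V := V) a (fun _ : E n => (1 : ℝ))
  rw [Ex_one h] at this
  simpa using this

theorem Ex_nonneg (h : Reg V c C) {f : E n → ℝ} (hf : ∀ x, 0 ≤ f x) : 0 ≤ Ex V f := by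
  unfold Ex
  exact div_nonneg (integral_nonneg fun x => mul_nonneg (hf x) (Real.exp_pos _).le) h.Z_pos.le

theorem Ex_mono (h : Reg V c C) {f g : E n → ℝ} (hf : Gm f) (hg : Gm g) (hfg : ∀ x, f x ≤ g x) :
    Ex V f ≤ Ex V g := by
  have h1 : 0 ≤ Ex V (fun x => g x - f x) := Ex_nonneg h fun x => sub_nonneg.2 (hfg x)
  rw [Ex_sub h hg hf] at h1
  linarith

theorem Ex_congr_ae {f g : E n → ℝ} (hfg : ∀ᵐ x, f x = g x) : Ex V f = Ex V g := by
  unfold Ex
  congr 1
  refine integral_congr_ae ?_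
  filter_upwards [hfg] with x hx
  rw [hx]

end Ex

end Vale.Agent.P227.M.Loc
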