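import Vale.Agent.P227.M.Stmts
import Vale.Agent.P227.M.Loc.Gm

/-! # P227/M/Loc/Calc: bounded Lipschitz functions, `L F` for test functions `F`, `∇(LF + F + u)` -/

open MeasureTheory

namespace Vale.Agent.P227.M.Loc

variable {n : ℕ}

/-- bounded Lipschitz functions -/
def BL (f : E n → ℝ) : Prop :=
  ∃ K B : ℝ, 0 ≤ K ∧ 0 ≤ B ∧ (∀ x y, |f x - f y| ≤ K * ‖x - y‖) ∧ ∀ x, |f x| ≤ B

theorem BL.lipschitz {f : E n → ℝ} (h : BL f) : ∃ K : NNReal, LipschitzWith K f := by
  obtain ⟨K, B, hK, -, h1, -⟩ := h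
  refine ⟨Real.toNNReal K, LipschitzWith.of_dist_le' fun x y => ?_⟩
  rw [Real.dist_eq, dist_eq_norm]
  exact h1 x y

theorem BL.continuous {f : E n → ℝ} (h : BL f) : Continuous f := by
  obtain ⟨K, hK⟩ := h.lipschitz
  exact hK.continuous

theorem BL.gr {f : E n → ℝ} (h : BL f) : Gr f := by
  have hc := h.continuous
  obtain ⟨K, B, -, -, -, h2⟩ := h
  exact Gr.of_bound hc h2

theorem BL.add {f g : E n → ℝ} (hf : BL f) (hg : BL g) : BL (fun x => f x + g x) := by
  obtain ⟨K, B, hK, hB, h1, h2⟩ := hf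
  obtain ⟨K', B', hK', hB', h1', h2'⟩ := hg
  refine ⟨K + K', B + B', by positivity, by positivity, fun x y => ?_, fun x => ?_⟩
  · calc |f x + g x - (f y + g y)| = |(f x - f y) + (g x - g y)| := by congr 1; ring
      _ ≤ |f x - f y| + |g x - g y| := abs_add_le _ _
      _ ≤ K * ‖x - y‖ + K' * ‖x - y‖ := add_le_add (h1 x y) (h1' x y)
      _ = _ := by ring
  · exact (abs_add_le _ _).trans (add_le_add (h2 x) (h2' x))

theorem BL.mul {f g : E n → ℝ} (hf : BL f) (hg : BL g) : BL (fun x => f x * g x) := by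
  obtain ⟨K, B, hK, hB, h1, h2⟩ := hf
  obtain ⟨K', B', hK', hB', h1', h2'⟩ := hg
  refine ⟨K * B' + B * K', B * B', by positivity, by positivity, fun x y => ?_, fun x => ?_⟩
  · calc |f x * g x - f y * g y| = |(f x - f y) * g x + f y * (g x - g y)| := by congr 1; ring
      _ ≤ |(f x - f y) * g x| + |f y * (g x - g y)| := abs_add_le _ _
      _ = |f x - f y| * |g x| + |f y| * |g x - g y| := by rw [abs_mul, abs_mul]
      _ ≤ (K * ‖x - y‖) * B' + B * (K' * ‖x - y‖) :=
          add_le_add (mul_le_mul (h1 x y) (h2' x) (abs_nonneg _) (by positivity))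
            (mul_le_mul (h2 y) (h1' x y) (abs_nonneg _) hB)
      _ = _ := by ring
  · rw [abs_mul]
    exact mul_le_mul (h2 x) (h2' x) (abs_nonneg _) hB

theorem BL.const (a : ℝ) : BL (fun _ : E n => a) :=
  ⟨0, |a|, le_rfl, abs_nonneg _, fun x y => by simp, fun _ => le_rfl⟩

theorem BL.neg {f : E n → ℝ} (hf : BL f) : BL (fun x => -f x) := by
  have h := (BL.const (-1)).mul hf
  simpa using h

theorem BL.sub {f g : E n → ℝ} (hf : BL f) (hg : BL g) : BL (fun x => f x - g x) := by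
  have h := hf.add hg.neg
  simpa [sub_eq_add_neg] using h

theorem BL.fsum {ι : Type*} [Fintype ι] {f : ι → E n → ℝ} (hf : ∀ i, BL (f i)) :
    BL (fun x => ∑ i, f i x) := by
  classical
  have : ∀ s : Finset ι, BL (fun x => ∑ i ∈ s, f i x) := fun s => by
    induction s using Finset.induction_on with
    | empty => simpa using BL.const (n := n) 0
    | insert a s ha ih =>
      have h := (hf a).add ih
      simpa [Finset.sum_insert ha] using h
  exact this _

theorem BL.of_test {f : E n → ℝ} (hf : Test f) : BL f := by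
  obtain ⟨K, hK⟩ := ContDiff.lipschitzWith_of_hasCompactSupport hf.2 hf.1 (by simp)
  obtain ⟨B, hB⟩ := hf.1.continuous.bounded_above_of_compact_support hf.2
  refine ⟨K, |B|, K.2, abs_nonneg _, fun x y => ?_, fun x => ?_⟩
  · have := hK.dist_le_mul x y
    rwa [Real.dist_eq, dist_eq_norm] at this
  · exact (hB x).trans (le_abs_self B)

/-! ### test functions -/

theorem test_pd {f : E n → ℝ} (hf : Test f) (i : Fin n) : Test (pd i f) :=
  ⟨contDiff_pd_top hf.1 i, hf.2.fderiv_apply ℝ (ei i)⟩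

theorem test_hess {f : E n → ℝ} (hf : Test f) (i j : Fin n) : Test (fun x => hess f x i j) :=
  test_pd (test_pd hf j) i

theorem test_coord_mul {f : E n → ℝ} (hf : Test f) (i : Fin n) : Test (fun x => x i * f x) := by
  refine ⟨ContDiff.mul (by fun_prop) hf.1, ?_⟩
  exact hf.2.mul_left

theorem Test.gm {f : E n → ℝ} (hf : Test f) : Gm f := Gm.of_gr (BL.of_test hf).gr

variable {ψ V : E n → ℝ} {c C M : ℝ}

theorem bl_tau (h : MM ψ V c C M) (i j : Fin n) : BL (fun x => tau ψ x i j) := by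
  have hc := h.c_pos
  refine ⟨|(n : ℝ) ^ 2 * (1 / c) ^ 2 * M|, 1 / c, abs_nonneg _, by positivity, fun x y => ?_,
    fun x => tau_bdd h x i j⟩
  exact (tau_lip h x y i j).trans (mul_le_mul_of_nonneg_right (le_abs_self _) (norm_nonneg _))

theorem bl_Lop (h : MM ψ V c C M) {F : E n → ℝ} (hF : Test F) : BL (Lop ψ F) := by
  have h1 : BL (fun x => ∑ i, ∑ j, tau ψ x i j * hess F x i j) :=
    BL.fsum fun i => BL.fsum fun j => (bl_tau h i j).mul (BL.of_test (test_hess hF i j))
  have h2 : BL (fun x => ∑ i, x i * pd i F x) :=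
    BL.fsum fun i => BL.of_test (test_coord_mul (test_pd hF i) i)
  exact h1.sub h2

theorem gm_pd_of_bl {f : E n → ℝ} (h : BL f) (b : Fin n) : Gm (pd b f) := by
  obtain ⟨K, hK⟩ := h.lipschitz
  refine Gm.of_bound (B := K) ?_ fun x => ?_
  · exact (measurable_fderiv_apply_const ℝ f (ei b)).aestronglyMeasurable
  · exact (abs_pd_le_norm f x b).trans (norm_fderiv_le_of_lipschitz ℝ hK)

theorem ae_diff_of_bl {f : E n → ℝ} (h : BL f) : ∀ᵐ x, DifferentiableAt ℝ f x := by
  obtain ⟨K, hK⟩ := h.lipschitz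
  exact hK.ae_differentiableAt

theorem gm_fld (h : MM ψ V c C M) {f : E n → ℝ} (hf : BL f) (b : Fin n) : Gm (fld ψ f b) :=
  Gm.fsum fun j => (Gm.of_gr (bl_tau h b j).gr).mul (gm_pd_of_bl hf j)

theorem fld_add_ae {f g : E n → ℝ} (hf : BL f) (hg : Differentiable ℝ g) :
    ∀ᵐ x, ∀ b, fld ψ (fun z => f z + g z) b x = fld ψ f b x + fld ψ g b x := by
  filter_upwards [ae_diff_of_bl hf] with x hx b
  unfold fld
  rw [← Finset.sum_add_distrib]
  refine Finset.sum_congr rfl fun j _ => ?_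
  have : pd j (fun z => f z + g z) x = pd j f x + pd j g x := by
    unfold pd
    rw [fderiv_fun_add hx (hg x)]
    rfl
  rw [this]
  ring

/-! ### sums of pieces, `g = ⟨x, ∇W⟩` -/

theorem pd_sum {J : ℕ} {W : Fin J → E n → ℝ} (hW : ∀ j, Differentiable ℝ (W j)) (i : Fin n)
    (x : E n) : pd i (fun x => ∑ j, W j x) x = ∑ j, pd i (W j) x := by
  unfold pd
  rw [fderiv_fun_sum fun j _ => hW j x]
  simp

theorem hess_sum {J : ℕ} {W : Fin J → E n → ℝ} (hW : ∀ j, ContDiff ℝ (⊤ : ℕ∞) (W j))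
    (x : E n) : hess (fun x => ∑ j, W j x) x = ∑ j, hess (W j) x := by
  ext i k
  have h1 : pd k (fun x => ∑ j, W j x) = fun x => ∑ j, pd k (W j) x := by
    funext y
    exact pd_sum (fun j => (hW j).differentiable (by simp)) k y
  rw [hess, h1, pd_sum (fun j => (contDiff_pd_top (hW j) k).differentiable (by simp)) i x,
    Matrix.sum_apply]
  rfl

/-- `g = ⟨x, ∇W⟩` -/
noncomputable def rad (W : E n → ℝ) (x : E n) : ℝ := ∑ i, x i * pd i W x

theorem rad_smooth {W : E n → ℝ} (hW : ContDiff ℝ (⊤ : ℕ∞) W) : ContDiff ℝ (⊤ : ℕ∞) (rad W) := by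
  unfold rad
  refine ContDiff.sum fun i _ => ContDiff.mul (by fun_prop) (contDiff_pd_top hW i)

theorem pd_rad {W : E n → ℝ} (hW : ContDiff ℝ (⊤ : ℕ∞) W) (b : Fin n) (x : E n) :
    pd b (rad W) x = pd b W x + ∑ i, hess W x b i * x i := by
  have hd : ∀ i : Fin n, HasFDerivAt (fun x : E n => x i * pd i W x)
      ((x i) • fderiv ℝ (pd i W) x + (pd i W x) • (EuclideanSpace.proj i : E n →L[ℝ] ℝ)) x := fun i => by
    have h1 : HasFDerivAt (fun x : E n => x i) (EuclideanSpace.proj i : E n →L[ℝ] ℝ) x :=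
      (EuclideanSpace.proj i : E n →L[ℝ] ℝ).hasFDerivAt
    have h2 : HasFDerivAt (pd i W) (fderiv ℝ (pd i W) x) x :=
      ((contDiff_pd_top hW i).differentiable (by simp) x).hasFDerivAt
    exact h1.mul h2
  have h := (HasFDerivAt.fun_sum fun i (_ : i ∈ Finset.univ) => hd i).fderiv
  have h' : fderiv ℝ (rad W) x = ∑ i, ((x i) • fderiv ℝ (pd i W) x
      + (pd i W x) • (EuclideanSpace.proj i : E n →L[ℝ] ℝ)) := h
  have e : ∀ i, (EuclideanSpace.proj i : E n →L[ℝ] ℝ) (ei b) = if i = b then 1 else 0 := fun i => by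
    simp [ei_apply]
  show fderiv ℝ (rad W) x (ei b) = _
  rw [h']
  simp only [sum_apply, add_apply, smul_apply, smul_eq_mul, e, Finset.sum_add_distrib, mul_ite,
    mul_one, mul_zero, Finset.sum_ite_eq', Finset.mem_univ, if_true]
  rw [add_comm]
  congr 1
  refine Finset.sum_congr rfl fun i _ => ?_
  rw [mul_comm]
  rfl

end Vale.Agent.P227.M.Loc
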