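import Vale.Agent.P227.M.Loc.Calc

/-! # P227/M/Loc/Ineq: the inequality for fixed test functions `F`, `u` -/

open MeasureTheory

namespace Vale.Agent.P227.M.Loc

variable {n : ℕ} {ψ V : E n → ℝ} {c C M : ℝ}

/-! ### pointwise -/

theorem pt_trace (h : MM ψ V c C M) {W F : E n → ℝ} (hW : Piece W) (hF : Test F) (ρ : ℝ) (x : E n) :
    0 ≤ ρ ^ 2 * (hess W x * tau ψ x).trace - 2 * ρ * (hess W x * tau ψ x * hess F x * tau ψ x).trace
      + (hess W x * tau ψ x * hess F x * tau ψ x * hess F x * tau ψ x).trace := by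
  have hF2 : ContDiff ℝ 2 F := hF.1.of_le (by norm_cast)
  refine trace_square_nonneg (posSemidef_of_qf (hess_symm hW.C2 x) (hW.psd x))
    (tau_posDef h x).posSemidef ?_ ρ
  ext i j
  simp [hess_symm hF2 x i j]

theorem pt_vec {W : E n → ℝ} (hW : Piece W) (ρ : ℝ) (x : E n) (s : Fin n → ℝ) :
    0 ≤ ρ ^ 2 * qf (hess W x) x - 2 * ρ * (∑ b, (∑ i, hess W x b i * x i) * s b)
      + ∑ a, ∑ b, hess W x a b * s a * s b := by
  have h := hW.psd x (WithLp.toLp 2 (fun i => ρ * x i - s i))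
  have e1 : ∑ b, (∑ i, hess W x b i * x i) * s b = ∑ a, ∑ b, hess W x a b * x b * s a := by
    refine Finset.sum_congr rfl fun a _ => ?_
    rw [Finset.sum_mul]
  have e2 : ∑ a, ∑ b, hess W x a b * x b * s a = ∑ a, ∑ b, hess W x a b * x a * s b := by
    rw [Finset.sum_comm]
    refine Finset.sum_congr rfl fun a _ => Finset.sum_congr rfl fun b _ => ?_
    rw [hess_symm hW.C2 x b a]
  have e3 : qf (hess W x) (WithLp.toLp 2 (fun i => ρ * x i - s i))
      = ρ ^ 2 * qf (hess W x) x - ρ * (∑ a, ∑ b, hess W x a b * x b * s a)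
        - ρ * (∑ a, ∑ b, hess W x a b * x a * s b) + ∑ a, ∑ b, hess W x a b * s a * s b := by
    simp only [qf, Finset.mul_sum, ← Finset.sum_sub_distrib, ← Finset.sum_add_distrib]
    refine Finset.sum_congr rfl fun a _ => Finset.sum_congr rfl fun b _ => ?_
    ring
  rw [e3, e2] at h
  rw [e1, e2]
  linarith

/-! ### growth of matrix valued functions -/

/-- all entries are of polynomial growth -/
def GmM (A : E n → Matrix (Fin n) (Fin n) ℝ) : Prop := ∀ i j, Gm (fun x => A x i j)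

theorem GmM.mul {A B : E n → Matrix (Fin n) (Fin n) ℝ} (hA : GmM A) (hB : GmM B) :
    GmM (fun x => A x * B x) := fun i j => by
  simp only [Matrix.mul_apply]
  exact Gm.fsum fun k => (hA i k).mul (hB k j)

theorem GmM.trace {A : E n → Matrix (Fin n) (Fin n) ℝ} (hA : GmM A) : Gm (fun x => (A x).trace) := by
  simp only [Matrix.trace, Matrix.diag_apply]
  exact Gm.fsum fun k => hA k k

theorem gmM_hess {W : E n → ℝ} (hW : Piece W) : GmM (hess W) := fun i j => Gm.of_gr (hW.gr_hess i j)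

theorem gmM_hessT {F : E n → ℝ} (hF : Test F) : GmM (hess F) := fun i j => Gm.of_gr (BL.of_test (test_hess hF i j)).gr

theorem gmM_tau (h : MM ψ V c C M) : GmM (tau ψ) := fun i j => Gm.of_gr (bl_tau h i j).gr

theorem gm_qf {W : E n → ℝ} (hW : Piece W) : Gm (fun x => qf (hess W x) x) :=
  Gm.fsum fun i => Gm.fsum fun j => ((gmM_hess hW i j).mul (Gm.coord i)).mul (Gm.coord j)

theorem gm_rad {W : E n → ℝ} (hW : Piece W) : Gm (rad W) :=
  Gm.fsum fun i => (Gm.coord i).mul (Gm.of_gr (hW.gr_pd i))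

theorem gm_Lop (h : MM ψ V c C M) {u : E n → ℝ} (hu : Test u) : Gm (Lop ψ u) :=
  Gm.of_gr (bl_Lop h hu).gr

/-! ### the abbreviations -/

/-- `h = LF + F + u` -/
noncomputable def hh (ψ F u : E n → ℝ) (z : E n) : ℝ := Lop ψ F z + F z + u z

theorem bl_LF (h : MM ψ V c C M) {F : E n → ℝ} (hF : Test F) : BL (fun z => Lop ψ F z + F z) :=
  (bl_Lop h hF).add (BL.of_test hF)

theorem bl_hh (h : MM ψ V c C M) {F u : E n → ℝ} (hF : Test F) (hu : Test u) : BL (hh ψ F u) :=
  (bl_LF h hF).add (BL.of_test hu)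

/-- one piece: `E tr (HτNτ) + E ⟨Hx, s⟩ = E (-Lu) g - E ⟨∇W, τ∇h⟩` -/
theorem one_piece (hibp : StmtIBP) (hdiv : StmtDiv) (hV : Nice V c C) (h : MM ψ V c C M)
    {W F u : E n → ℝ} (hW : Piece W) (hF : Test F) (hu : Test u) :
    Ex V (fun x => (hess W x * tau ψ x * hess F x * tau ψ x).trace)
      + Ex V (fun x => ∑ b, (∑ i, hess W x b i * x i) * fld ψ u b x)
      = - Ex V (fun x => Lop ψ u x * rad W x)
        - Ex V (fun x => ∑ b, pd b W x * fld ψ (hh ψ F u) b x) := by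
  have hR : Reg V c C := hV.toReg
  have hsu : ∀ b, Gm (fld ψ u b) := fun b => gm_fld h (BL.of_test hu) b
  have hpW : ∀ b, Gm (pd b W) := fun b => Gm.of_gr (hW.gr_pd b)
  have h1 := hibp n ψ V c C M hV h u (rad W) hu (rad_smooth hW.smooth)
  have h2 := hdiv n ψ V c C M hV h F W hF hW.smooth
  have e1 : Ex V (fun x => -(Lop ψ u x) * rad W x) = - Ex V (fun x => Lop ψ u x * rad W x) := by
    rw [← Ex_neg]
    simp only [neg_mul]
  have e2 : Ex V (fun x => ∑ b, pd b (rad W) x * fld ψ u b x)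
      = Ex V (fun x => ∑ b, pd b W x * fld ψ u b x)
        + Ex V (fun x => ∑ b, (∑ i, hess W x b i * x i) * fld ψ u b x) := by
    rw [← Ex_add hR (Gm.fsum fun b => (hpW b).mul (hsu b))
      (Gm.fsum fun b => (Gm.fsum fun i => (gmM_hess hW b i).mul (Gm.coord i)).mul (hsu b))]
    congr 1
    funext x
    rw [← Finset.sum_add_distrib]
    refine Finset.sum_congr rfl fun b _ => ?_
    rw [pd_rad hW.smooth]
    ring
  have e3 : Ex V (fun x => ∑ b, pd b W x * fld ψ (hh ψ F u) b x)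
      = Ex V (fun x => ∑ b, pd b W x * fld ψ (fun z => Lop ψ F z + F z) b x)
        + Ex V (fun x => ∑ b, pd b W x * fld ψ u b x) := by
    rw [← Ex_add hR (Gm.fsum fun b => (hpW b).mul (gm_fld h (bl_LF h hF) b))
      (Gm.fsum fun b => (hpW b).mul (hsu b))]
    refine Ex_congr_ae ?_
    filter_upwards [fld_add_ae (ψ := ψ) (bl_LF h hF) (hu.1.differentiable (by simp))] with x hx
    rw [← Finset.sum_add_distrib]
    refine Finset.sum_congr rfl fun b _ => ?_
    rw [← mul_add, ← hx b]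
    rfl
  rw [e1, e2] at h1
  rw [e3, h2]
  linarith

/-- the function `f = ∑ ρ_j ⟨x, ∇W_j⟩` -/
noncomputable def ff {J : ℕ} (W : Fin J → E n → ℝ) (ρ : Fin J → ℝ) (x : E n) : ℝ :=
  ∑ j, ρ j * ∑ i, x i * pd i (W j) x

theorem gm_ff {J : ℕ} {W : Fin J → E n → ℝ} (hW : ∀ j, Piece (W j)) (ρ : Fin J → ℝ) :
    Gm (ff W ρ) := Gm.fsum fun j => (gm_rad (hW j)).const_mul (ρ j)

/-- the two error terms -/
theorem main_ineq (hst : StmtStein) (hibp : StmtIBP) (hdiv : StmtDiv) (hkey : StmtKey)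
    (hV : Nice V c C) (h : MM ψ V c C M) {J : ℕ} {W : Fin J → E n → ℝ}
    (hW : ∀ j, Piece (W j)) (hVW : V = fun x => ∑ j, W j x) (ρ : Fin J → ℝ)
    {F u : E n → ℝ} (hF : Test F) (hu : Test u) :
    0 ≤ (∑ j, ρ j ^ 2 * Ex V (fun x => (∑ i, x i * pd i (W j) x) + qf (hess (W j) x) x))
      + 2 * Ex V (fun x => Lop ψ u x * ff W ρ x) + Ex V (fun x => (Lop ψ u x) ^ 2)
      + 2 * Ex V (fun x => ∑ b, (∑ j, ρ j * pd b (W j) x) * fld ψ (hh ψ F u) b x)
      + 2 * Ex V (fun x => ∑ b, fld ψ (hh ψ F u) b x * Lop ψ (pd b F) x) := by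
  have hR : Reg V c C := hV.toReg
  have hsu : ∀ b, Gm (fld ψ u b) := fun b => gm_fld h (BL.of_test hu) b
  have hsh : ∀ b, Gm (fld ψ (hh ψ F u) b) := fun b => gm_fld h (bl_hh h hF hu) b
  have hpW : ∀ j b, Gm (pd b (W j)) := fun j b => Gm.of_gr ((hW j).gr_pd b)
  have gT := gmM_tau h
  have gN := gmM_hessT hF
  have gH : ∀ j, GmM (hess (W j)) := fun j => gmM_hess (hW j)
  -- trace part
  have hA : ∀ j, 0 ≤ ρ j ^ 2 * Ex V (fun x => (hess (W j) x * tau ψ x).trace)
      - 2 * ρ j * Ex V (fun x => (hess (W j) x * tau ψ x * hess F x * tau ψ x).trace)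
      + Ex V (fun x => (hess (W j) x * tau ψ x * hess F x * tau ψ x * hess F x * tau ψ x).trace) :=
    fun j => by
      have g1 := ((gH j).mul gT).trace
      have g2 := ((((gH j).mul gT).mul gN).mul gT).trace
      have g3 := ((((((gH j).mul gT).mul gN).mul gT).mul gN).mul gT).trace
      have h0 := Ex_nonneg hR fun x => pt_trace h (hW j) hF (ρ j) x
      rw [Ex_add hR ((g1.const_mul _).sub (g2.const_mul _)) g3,
        Ex_sub hR (g1.const_mul _) (g2.const_mul _), Ex_const_mul, Ex_const_mul] at h0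
      exact h0
  have hB : ∀ j, 0 ≤ ρ j ^ 2 * Ex V (fun x => qf (hess (W j) x) x)
      - 2 * ρ j * Ex V (fun x => ∑ b, (∑ i, hess (W j) x b i * x i) * fld ψ u b x)
      + Ex V (fun x => ∑ a, ∑ b, hess (W j) x a b * fld ψ u a x * fld ψ u b x) :=
    fun j => by
      have g1 := gm_qf (hW j)
      have g2 : Gm (fun x => ∑ b, (∑ i, hess (W j) x b i * x i) * fld ψ u b x) :=
        Gm.fsum fun b => (Gm.fsum fun i => (gH j b i).mul (Gm.coord i)).mul (hsu b)
      have g3 : Gm (fun x => ∑ a, ∑ b, hess (W j) x a b * fld ψ u a x * fld ψ u b x) :=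
        Gm.fsum fun a => Gm.fsum fun b => ((gH j a b).mul (hsu a)).mul (hsu b)
      have h0 := Ex_nonneg hR fun x => pt_vec (hW j) (ρ j) x (fun b => fld ψ u b x)
      rw [Ex_add hR ((g1.const_mul _).sub (g2.const_mul _)) g3,
        Ex_sub hR (g1.const_mul _) (g2.const_mul _), Ex_const_mul, Ex_const_mul] at h0
      exact h0
  -- sums of the last terms
  have hHV : ∀ x, hess V x = ∑ j, hess (W j) x := fun x => by
    rw [hVW]
    exact hess_sum (fun j => (hW j).smooth) x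
  have hC1 : Ex V (fun x => (hess V x * tau ψ x * hess F x * tau ψ x * hess F x * tau ψ x).trace)
      = ∑ j, Ex V (fun x =>
        (hess (W j) x * tau ψ x * hess F x * tau ψ x * hess F x * tau ψ x).trace) := by
    rw [← Ex_sum hR _ fun j _ => ((((((gH j).mul gT).mul gN).mul gT).mul gN).mul gT).trace]
    congr 1
    funext x
    rw [hHV x]
    simp only [Finset.sum_mul, Matrix.trace_sum]
  have hC2 : Ex V (fun x => ∑ a, ∑ b, hess V x a b * fld ψ u a x * fld ψ u b x)
      = ∑ j, Ex V (fun x => ∑ a, ∑ b, hess (W j) x a b * fld ψ u a x * fld ψ u b x) := by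
    rw [← Ex_sum hR _ fun j _ => Gm.fsum fun a => Gm.fsum fun b => ((gH j a b).mul (hsu a)).mul (hsu b)]
    congr 1
    funext x
    rw [hHV x]
    simp only [Matrix.sum_apply, Finset.sum_mul]
    calc _ = ∑ a, ∑ j, ∑ b, hess (W j) x a b * fld ψ u a x * fld ψ u b x :=
          Finset.sum_congr rfl fun a _ => Finset.sum_comm
      _ = _ := Finset.sum_comm
  have hK := hkey n ψ V c C M hV h F u hF hu
  rw [hC1, hC2] at hK
  -- linear terms
  have hD : Ex V (fun x => Lop ψ u x * ff W ρ x)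
      = ∑ j, ρ j * Ex V (fun x => Lop ψ u x * rad (W j) x) := by
    have : ∀ j, ρ j * Ex V (fun x => Lop ψ u x * rad (W j) x)
        = Ex V (fun x => ρ j * (Lop ψ u x * rad (W j) x)) := fun j => (Ex_const_mul _ _).symm
    rw [Finset.sum_congr rfl fun j _ => this j,
      ← Ex_sum hR _ fun j _ => ((gm_Lop h hu).mul (gm_rad (hW j))).const_mul _]
    congr 1
    funext x
    simp only [ff, Finset.mul_sum, rad]
    refine Finset.sum_congr rfl fun j _ => Finset.sum_congr rfl fun i _ => ?_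
    ring
  have hE : Ex V (fun x => ∑ b, (∑ j, ρ j * pd b (W j) x) * fld ψ (hh ψ F u) b x)
      = ∑ j, ρ j * Ex V (fun x => ∑ b, pd b (W j) x * fld ψ (hh ψ F u) b x) := by
    have : ∀ j, ρ j * Ex V (fun x => ∑ b, pd b (W j) x * fld ψ (hh ψ F u) b x)
        = Ex V (fun x => ρ j * (∑ b, pd b (W j) x * fld ψ (hh ψ F u) b x)) :=
      fun j => (Ex_const_mul _ _).symm
    rw [Finset.sum_congr rfl fun j _ => this j,
      ← Ex_sum hR _ fun j _ => (Gm.fsum fun b => (hpW j b).mul (hsh b)).const_mul _]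
    congr 1
    funext x
    simp only [Finset.sum_mul, Finset.mul_sum]
    rw [Finset.sum_comm]
    refine Finset.sum_congr rfl fun j _ => Finset.sum_congr rfl fun i _ => ?_
    ring
  have hF' : ∀ j, ρ j ^ 2 * Ex V (fun x => (∑ i, x i * pd i (W j) x) + qf (hess (W j) x) x)
      = ρ j ^ 2 * Ex V (fun x => (hess (W j) x * tau ψ x).trace)
        + ρ j ^ 2 * Ex V (fun x => qf (hess (W j) x) x) := fun j => by
    have h1 : Ex V (fun x => (∑ i, x i * pd i (W j) x) + qf (hess (W j) x) x)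
        = Ex V (rad (W j)) + Ex V (fun x => qf (hess (W j) x) x) :=
      Ex_add hR (gm_rad (hW j)) (gm_qf (hW j))
    rw [hst n ψ V c C M hV h (W j) (hW j), h1, mul_add]
    rfl
  have hj : ∀ j, 0 ≤ ρ j ^ 2 * Ex V (fun x => (∑ i, x i * pd i (W j) x) + qf (hess (W j) x) x)
      + 2 * (ρ j * Ex V (fun x => Lop ψ u x * rad (W j) x))
      + 2 * (ρ j * Ex V (fun x => ∑ b, pd b (W j) x * fld ψ (hh ψ F u) b x))
      + Ex V (fun x => (hess (W j) x * tau ψ x * hess F x * tau ψ x * hess F x * tau ψ x).trace)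
      + Ex V (fun x => ∑ a, ∑ b, hess (W j) x a b * fld ψ u a x * fld ψ u b x) := fun j => by
    have h1 := hA j
    have h2 := hB j
    have h3 := one_piece hibp hdiv hV h (hW j) hF hu
    rw [hF' j]
    have h4 : ρ j * (Ex V (fun x => (hess (W j) x * tau ψ x * hess F x * tau ψ x).trace)
      + Ex V (fun x => ∑ b, (∑ i, hess (W j) x b i * x i) * fld ψ u b x))
      = ρ j * (- Ex V (fun x => Lop ψ u x * rad (W j) x)
        - Ex V (fun x => ∑ b, pd b (W j) x * fld ψ (hh ψ F u) b x)) := by rw [h3]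
    rw [mul_add, mul_sub, mul_neg] at h4
    linarith
  have hs := Finset.sum_nonneg fun j (_ : j ∈ Finset.univ) => hj j
  simp only [Finset.sum_add_distrib, ← Finset.mul_sum] at hs
  rw [hD, hE]
  have hhk : Ex V (fun x => ∑ b, fld ψ (fun z => Lop ψ F z + F z + u z) b x * Lop ψ (pd b F) x)
      = Ex V (fun x => ∑ b, fld ψ (hh ψ F u) b x * Lop ψ (pd b F) x) := rfl
  rw [hhk] at hK
  linarith

end Vale.Agent.P227.M.Loc
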