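import Mathlib

/-!
Integration by parts against `e^{-V}` on a finite dimensional real inner product space,
for functions of polynomial growth, when `a ‖x‖² - b ≤ V x` with `a > 0`.
-/

namespace Vale.Agent.P227.M.Loc

open MeasureTheory Real

noncomputable section

variable {E : Type*} [NormedAddCommGroup E] [InnerProductSpace ℝ E] [FiniteDimensional ℝ E]
  [MeasurableSpace E] [BorelSpace E]

/-- `(1+t)^N` is dominated by a Gaussian factor. -/
theorem one_add_pow_le (a : ℝ) (ha : 0 < a) (N : ℕ) :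
    ∃ K : ℝ, 0 < K ∧ ∀ t : ℝ, 0 ≤ t → (1 + t) ^ N ≤ K * exp (a * t ^ 2) := by
  refine ⟨(N.factorial : ℝ) * exp (1 + 1 / (4 * a)), by positivity, fun t ht => ?_⟩
  have h1 := Real.pow_div_factorial_le_exp (1 + t) (by positivity) N
  have h2 : (1 + t) ^ N ≤ (N.factorial : ℝ) * exp (1 + t) := by
    have : (0 : ℝ) < N.factorial := by positivity
    rw [div_le_iff₀ this] at h1
    linarith [mul_comm (exp (1 + t)) (N.factorial : ℝ)]
  refine h2.trans ?_
  rw [mul_assoc, ← Real.exp_add]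
  apply mul_le_mul_of_nonneg_left _ (by positivity)
  apply Real.exp_le_exp.2
  have h3 : 0 ≤ a * (t - 1 / (2 * a)) ^ 2 := by positivity
  have h4 : a * (t - 1 / (2 * a)) ^ 2 = a * t ^ 2 - t + 1 / (4 * a) := by
    field_simp
    ring
  linarith

omit [MeasurableSpace E] [BorelSpace E] in
/-- The Gaussian is integrable. -/
theorem integrable_gauss [MeasurableSpace E] [BorelSpace E] (a : ℝ) (ha : 0 < a) :
    Integrable (fun x : E => exp (-(a * ‖x‖ ^ 2))) := by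
  have h := (GaussianFourier.integrable_cexp_neg_mul_sq_norm_add (V := E) (b := (a : ℂ))
    (by simpa using ha) 0 0).norm
  refine h.congr (Filter.Eventually.of_forall fun x => ?_)
  simp only [zero_mul, add_zero, Complex.norm_exp]
  congr 1
  have : (-(a : ℂ) * (‖x‖ : ℂ) ^ 2) = ((-(a * ‖x‖ ^ 2) : ℝ) : ℂ) := by push_cast; ring
  rw [this, Complex.ofReal_re]

variable {F : Type*} [NormedAddCommGroup F] [NormedSpace ℝ F]

/-- Functions of polynomial growth are integrable against `e^{-V}`. -/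
theorem integrable_growth {V : E → ℝ} {g : E → F} (hg : AEStronglyMeasurable g volume)
    (hV : Continuous V) {a b : ℝ} (ha : 0 < a) (hVb : ∀ x, a * ‖x‖ ^ 2 - b ≤ V x)
    {C : ℝ} {N : ℕ} (hgb : ∀ x, ‖g x‖ ≤ C * (1 + ‖x‖) ^ N) :
    Integrable (fun x => exp (-V x) • g x) := by
  obtain ⟨K, hK, hKb⟩ := one_add_pow_le (a / 2) (by positivity) N
  have hC : 0 ≤ C := by
    have := (norm_nonneg _).trans (hgb 0)
    simpa using this
  have hint := (integrable_gauss (E := E) (a / 2) (by positivity)).const_mul (C * K * exp b)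
  refine hint.mono' ((Continuous.aestronglyMeasurable (by fun_prop)).smul hg)
    (Filter.Eventually.of_forall fun x => ?_)
  rw [norm_smul, Real.norm_eq_abs, abs_of_pos (exp_pos _)]
  calc exp (-V x) * ‖g x‖ ≤ exp (-(a * ‖x‖ ^ 2 - b)) * (C * (K * exp (a / 2 * ‖x‖ ^ 2))) := by
        apply mul_le_mul (Real.exp_le_exp.2 (by linarith [hVb x])) _ (norm_nonneg _) (by positivity)
        exact (hgb x).trans (mul_le_mul_of_nonneg_left (hKb _ (norm_nonneg _)) hC)
    _ = C * K * exp b * exp (-(a / 2 * ‖x‖ ^ 2)) := by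
        have : exp (-(a * ‖x‖ ^ 2 - b)) * exp (a / 2 * ‖x‖ ^ 2)
            = exp b * exp (-(a / 2 * ‖x‖ ^ 2)) := by
          rw [← Real.exp_add, ← Real.exp_add]
          congr 1
          ring
        calc _ = C * K * (exp (-(a * ‖x‖ ^ 2 - b)) * exp (a / 2 * ‖x‖ ^ 2)) := by ring
          _ = _ := by rw [this]; ring

/-- Continuous functions of polynomial growth are integrable against `e^{-V}` (product form). -/
theorem integrable_mul_exp {V g : E → ℝ} (hg : AEStronglyMeasurable g volume)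
    (hV : Continuous V) {a b : ℝ} (ha : 0 < a) (hVb : ∀ x, a * ‖x‖ ^ 2 - b ≤ V x)
    {C : ℝ} {N : ℕ} (hgb : ∀ x, ‖g x‖ ≤ C * (1 + ‖x‖) ^ N) :
    Integrable (fun x => g x * exp (-V x)) := by
  refine (integrable_growth hg hV ha hVb hgb).congr (Filter.Eventually.of_forall fun x => ?_)
  simp [mul_comm]

/-- Scalar integration by parts in the direction `v`, integrability form. -/
theorem integral_fderiv_sub_of_integrable {V f : E → ℝ} (hV : Differentiable ℝ V)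
    (hf : Differentiable ℝ f) (v : E)
    (h1 : Integrable (fun x => fderiv ℝ f x v * exp (-V x)))
    (h2 : Integrable (fun x => f x * fderiv ℝ V x v * exp (-V x)))
    (h3 : Integrable (fun x => f x * exp (-V x))) :
    ∫ x, (fderiv ℝ f x v - f x * fderiv ℝ V x v) * exp (-V x) = 0 := by
  have key := integral_bilinear_hasLineDerivAt_right_eq_neg_left_of_integrable
    (μ := (volume : Measure E)) (B := ContinuousLinearMap.mul ℝ ℝ)
    (f := f) (f' := fun x => fderiv ℝ f x v) (g := fun x => exp (-V x))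
    (g' := fun x => exp (-V x) * (-(fderiv ℝ V x v))) (v := v)
    (by simpa using h1)
    (by
      refine (h2.neg).congr (Filter.Eventually.of_forall fun x => ?_)
      simp only [Pi.neg_apply, ContinuousLinearMap.mul_apply']
      ring)
    (by simpa using h3)
    (fun x _ => (hf x).hasFDerivAt.hasLineDerivAt v)
    (fun x _ => by
      have h := ((hV x).hasFDerivAt.neg.exp).hasLineDerivAt v
      simpa using h)
  simp only [ContinuousLinearMap.mul_apply'] at key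
  have e1 : ∀ x, (fderiv ℝ f x v - f x * fderiv ℝ V x v) * exp (-V x)
      = fderiv ℝ f x v * exp (-V x) + f x * (exp (-V x) * -(fderiv ℝ V x v)) := fun x => by ring
  simp_rw [e1]
  rw [integral_add h1 (by
    refine (h2.neg).congr (Filter.Eventually.of_forall fun x => ?_)
    simp only [Pi.neg_apply]
    ring), key]
  ring

/-- Scalar integration by parts in the direction `v`. -/
theorem integral_fderiv_sub {V f : E → ℝ} (hV : ContDiff ℝ 1 V) (hf : ContDiff ℝ 1 f)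
    {a b : ℝ} (ha : 0 < a) (hVb : ∀ x, a * ‖x‖ ^ 2 - b ≤ V x)
    {C1 : ℝ} {N1 : ℕ} (hVg : ∀ x, ‖fderiv ℝ V x‖ ≤ C1 * (1 + ‖x‖) ^ N1)
    {C2 : ℝ} {N2 : ℕ} (hfg : ∀ x, ‖f x‖ ≤ C2 * (1 + ‖x‖) ^ N2)
    {C3 : ℝ} {N3 : ℕ} (hfg' : ∀ x, ‖fderiv ℝ f x‖ ≤ C3 * (1 + ‖x‖) ^ N3) (v : E) :
    ∫ x, (fderiv ℝ f x v - f x * fderiv ℝ V x v) * exp (-V x) = 0 := by
  have cf : Continuous (fun x => fderiv ℝ f x v) :=
    (hf.continuous_fderiv (by norm_num)).clm_apply continuous_const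
  have cV : Continuous (fun x => fderiv ℝ V x v) :=
    (hV.continuous_fderiv (by norm_num)).clm_apply continuous_const
  have hC1 : 0 ≤ C1 := by
    have := (norm_nonneg _).trans (hVg 0)
    simpa using this
  have hC2 : 0 ≤ C2 := by
    have := (norm_nonneg _).trans (hfg 0)
    simpa using this
  refine integral_fderiv_sub_of_integrable (hV.differentiable (by norm_num))
    (hf.differentiable (by norm_num)) v ?_ ?_ ?_
  · refine integrable_mul_exp cf.aestronglyMeasurable hV.continuous ha hVb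
      (C := C3 * ‖v‖) (N := N3) fun x => ?_
    calc ‖fderiv ℝ f x v‖ ≤ ‖fderiv ℝ f x‖ * ‖v‖ := (fderiv ℝ f x).le_opNorm v
      _ ≤ (C3 * (1 + ‖x‖) ^ N3) * ‖v‖ := mul_le_mul_of_nonneg_right (hfg' x) (norm_nonneg _)
      _ = _ := by ring
  · refine integrable_mul_exp (hf.continuous.mul cV).aestronglyMeasurable hV.continuous ha hVb
      (C := C2 * C1 * ‖v‖) (N := N2 + N1) fun x => ?_
    calc ‖f x * fderiv ℝ V x v‖ = ‖f x‖ * ‖fderiv ℝ V x v‖ := norm_mul _ _
      _ ≤ (C2 * (1 + ‖x‖) ^ N2) * ((C1 * (1 + ‖x‖) ^ N1) * ‖v‖) := by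
          apply mul_le_mul (hfg x) _ (norm_nonneg _) (by positivity)
          exact ((fderiv ℝ V x).le_opNorm v).trans
            (mul_le_mul_of_nonneg_right (hVg x) (norm_nonneg _))
      _ = _ := by ring
  · exact integrable_mul_exp hf.continuous.aestronglyMeasurable hV.continuous ha hVb hfg

end

noncomputable section

open scoped RealInnerProductSpace

variable {n : ℕ}

/-- Divergence of a vector field on `EuclideanSpace ℝ (Fin n)`. -/
def dvg (w : EuclideanSpace ℝ (Fin n) → EuclideanSpace ℝ (Fin n))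
    (x : EuclideanSpace ℝ (Fin n)) : ℝ :=
  ∑ i, (fderiv ℝ w x (EuclideanSpace.single i 1)) i

/-- Vector form: `∫ (div w - ⟨∇V, w⟩) e^{-V} = 0`; here `⟨∇V, w⟩ = DV (w)`. -/
theorem integral_dvg_sub {V : EuclideanSpace ℝ (Fin n) → ℝ}
    {w : EuclideanSpace ℝ (Fin n) → EuclideanSpace ℝ (Fin n)}
    (hV : ContDiff ℝ 1 V) (hw : ContDiff ℝ 1 w)
    {a b : ℝ} (ha : 0 < a) (hVb : ∀ x, a * ‖x‖ ^ 2 - b ≤ V x)
    {C1 : ℝ} {N1 : ℕ} (hVg : ∀ x, ‖fderiv ℝ V x‖ ≤ C1 * (1 + ‖x‖) ^ N1)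
    {C2 : ℝ} {N2 : ℕ} (hwg : ∀ x, ‖w x‖ ≤ C2 * (1 + ‖x‖) ^ N2)
    {C3 : ℝ} {N3 : ℕ} (hwg' : ∀ x, ‖fderiv ℝ w x‖ ≤ C3 * (1 + ‖x‖) ^ N3) :
    ∫ x, (dvg w x - fderiv ℝ V x (w x)) * exp (-V x) = 0 := by
  have hwd : Differentiable ℝ w := hw.differentiable (by norm_num)
  have hcoord : ∀ i, ContDiff ℝ 1 (fun x => w x i) := fun i => by
    exact (EuclideanSpace.proj i : EuclideanSpace ℝ (Fin n) →L[ℝ] ℝ).contDiff.comp hw
  have hfd : ∀ i x v, fderiv ℝ (fun x => w x i) x v = (fderiv ℝ w x v) i := fun i x v => by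
    have h := ((EuclideanSpace.proj i : EuclideanSpace ℝ (Fin n) →L[ℝ] ℝ).hasFDerivAt.comp x
      (hwd x).hasFDerivAt).fderiv
    have h2 : fderiv ℝ (fun x => w x i) x
        = (EuclideanSpace.proj i : EuclideanSpace ℝ (Fin n) →L[ℝ] ℝ).comp (fderiv ℝ w x) := h
    rw [h2]
    rfl
  have hexp : ∀ x, fderiv ℝ V x (w x)
      = ∑ i, w x i * fderiv ℝ V x (EuclideanSpace.single i 1) := fun x => by
    conv_lhs => rw [← (EuclideanSpace.basisFun (Fin n) ℝ).sum_repr (w x)]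
    simp [map_sum]
  have hnc : ∀ i (y : EuclideanSpace ℝ (Fin n)), ‖y i‖ ≤ ‖y‖ := fun i y =>
    PiLp.norm_apply_le y i
  have hbd1 : ∀ i x, ‖w x i‖ ≤ C2 * (1 + ‖x‖) ^ N2 := fun i x => (hnc i _).trans (hwg x)
  have hbd2 : ∀ i x, ‖fderiv ℝ (fun x => w x i) x‖ ≤ C3 * (1 + ‖x‖) ^ N3 := fun i x => by
    refine le_trans ?_ (hwg' x)
    refine ContinuousLinearMap.opNorm_le_bound _ (norm_nonneg _) fun v => ?_
    rw [hfd i x v]
    exact (hnc i _).trans ((fderiv ℝ w x).le_opNorm v)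
  have hsum : ∀ x, (dvg w x - fderiv ℝ V x (w x)) * exp (-V x)
      = ∑ i, (fderiv ℝ (fun x => w x i) x (EuclideanSpace.single i 1)
        - w x i * fderiv ℝ V x (EuclideanSpace.single i 1)) * exp (-V x) := fun x => by
    rw [dvg, hexp x, ← Finset.sum_sub_distrib, Finset.sum_mul]
    refine Finset.sum_congr rfl fun i _ => ?_
    rw [hfd i x]
  simp_rw [hsum]
  have hC1 : 0 ≤ C1 := by
    have := (norm_nonneg _).trans (hVg 0)
    simpa using this
  have hC2 : 0 ≤ C2 := by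
    have := (norm_nonneg _).trans (hwg 0)
    simpa using this
  rw [integral_finsetSum]
  · refine Finset.sum_eq_zero fun i _ => ?_
    exact integral_fderiv_sub hV (hcoord i) ha hVb hVg (hbd1 i) (hbd2 i) _
  · intro i _
    have cf : Continuous (fun x => fderiv ℝ (fun x => w x i) x (EuclideanSpace.single i 1)) :=
      ((hcoord i).continuous_fderiv (by norm_num)).clm_apply continuous_const
    have cV : Continuous (fun x => fderiv ℝ V x (EuclideanSpace.single i 1)) :=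
      (hV.continuous_fderiv (by norm_num)).clm_apply continuous_const
    have i1 := integrable_mul_exp cf.aestronglyMeasurable hV.continuous ha hVb
      (C := C3 * ‖(EuclideanSpace.single i (1:ℝ) : EuclideanSpace ℝ (Fin n))‖) (N := N3)
      (fun x => by
        calc _ ≤ ‖fderiv ℝ (fun x => w x i) x‖ * ‖(EuclideanSpace.single i (1:ℝ) :
              EuclideanSpace ℝ (Fin n))‖ := ContinuousLinearMap.le_opNorm _ _
          _ ≤ (C3 * (1 + ‖x‖) ^ N3) * ‖(EuclideanSpace.single i (1:ℝ) :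
              EuclideanSpace ℝ (Fin n))‖ :=
              mul_le_mul_of_nonneg_right (hbd2 i x) (norm_nonneg _)
          _ = _ := by ring)
    have i2 := integrable_mul_exp ((hcoord i).continuous.mul cV).aestronglyMeasurable
      hV.continuous ha hVb
      (C := C2 * C1 * ‖(EuclideanSpace.single i (1:ℝ) : EuclideanSpace ℝ (Fin n))‖)
      (N := N2 + N1) (fun x => by
        calc ‖w x i * fderiv ℝ V x (EuclideanSpace.single i 1)‖
            = ‖w x i‖ * ‖fderiv ℝ V x (EuclideanSpace.single i 1)‖ := norm_mul _ _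
          _ ≤ (C2 * (1 + ‖x‖) ^ N2) * ((C1 * (1 + ‖x‖) ^ N1) *
              ‖(EuclideanSpace.single i (1:ℝ) : EuclideanSpace ℝ (Fin n))‖) := by
              apply mul_le_mul (hbd1 i x) _ (norm_nonneg _) (by positivity)
              exact ((fderiv ℝ V x).le_opNorm _).trans
                (mul_le_mul_of_nonneg_right (hVg x) (norm_nonneg _))
          _ = _ := by ring)
    refine (i1.sub i2).congr (Filter.Eventually.of_forall fun x => ?_)
    simp only [Pi.sub_apply, Pi.mul_apply]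
    ring

end

/-! ### Hypotheses from `c ≤ D²V ≤ C` -/

noncomputable section

open scoped RealInnerProductSpace

variable {E : Type*} [NormedAddCommGroup E] [InnerProductSpace ℝ E]

/-- A symmetric form with `0 ≤ B v v ≤ C ‖v‖²` has norm at most `C`. -/
theorem opNorm_le_of_quad {B : E →L[ℝ] E →L[ℝ] ℝ} {C : ℝ} (hC : 0 ≤ C)
    (hs : ∀ u v, B u v = B v u) (h0 : ∀ v, 0 ≤ B v v) (h1 : ∀ v, B v v ≤ C * ‖v‖ ^ 2) :
    ‖B‖ ≤ C := by
  have hCS : ∀ u v, |B u v| ≤ C * ‖u‖ * ‖v‖ := fun u v => by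
    have hq : ∀ t : ℝ, 0 ≤ B v v * (t * t) + 2 * B u v * t + B u u := fun t => by
      have := h0 (u + t • v)
      simp only [map_add, map_smul, add_apply,
        smul_apply, smul_eq_mul] at this
      rw [hs v u] at this
      linarith
    have hd := discrim_le_zero hq
    rw [discrim] at hd
    have h2 : (B u v) ^ 2 ≤ B u u * B v v := by nlinarith
    have h3 : B u u * B v v ≤ (C * ‖u‖ ^ 2) * (C * ‖v‖ ^ 2) :=
      mul_le_mul (h1 u) (h1 v) (h0 v) (by positivity)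
    have h4 : (B u v) ^ 2 ≤ (C * ‖u‖ * ‖v‖) ^ 2 := by
      refine (h2.trans h3).trans (le_of_eq ?_)
      ring
    exact abs_le_of_sq_le_sq h4 (by positivity)
  refine ContinuousLinearMap.opNorm_le_bound _ hC fun u => ?_
  refine ContinuousLinearMap.opNorm_le_bound _ (by positivity) fun v => ?_
  rw [Real.norm_eq_abs]
  exact hCS u v

/-- Quadratic lower bound of `V` from `c ≤ D²V`. -/
theorem quad_lower {V : E → ℝ} (hV : ContDiff ℝ 2 V) {c : ℝ} (hc : 0 < c)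
    (hlow : ∀ x v, c * ‖v‖ ^ 2 ≤ fderiv ℝ (fderiv ℝ V) x v v) :
    ∃ b : ℝ, ∀ x, c / 4 * ‖x‖ ^ 2 - b ≤ V x := by
  refine ⟨‖fderiv ℝ V 0‖ ^ 2 / c - V 0, fun x => ?_⟩
  have hd1 : Differentiable ℝ V := hV.differentiable (by norm_num)
  have hd2 : Differentiable ℝ (fderiv ℝ V) :=
    (hV.fderiv_right (m := 1) (by norm_num)).differentiable (by norm_num)
  have hpath : ∀ t : ℝ, HasDerivAt (fun t : ℝ => t • x) x t := fun t => by
    simpa using (hasDerivAt_id t).smul_const x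
  have hg : ∀ t : ℝ, HasDerivAt (fun t : ℝ => V (t • x)) (fderiv ℝ V (t • x) x) t := fun t =>
    (hd1 (t • x)).hasFDerivAt.comp_hasDerivAt t (hpath t)
  have hg' : ∀ t : ℝ, HasDerivAt (fun t : ℝ => fderiv ℝ V (t • x) x)
      (fderiv ℝ (fderiv ℝ V) (t • x) x x) t := fun t => by
    have h := (hd2 (t • x)).hasFDerivAt.comp_hasDerivAt t (hpath t)
    exact h.clm_apply (hasDerivAt_const t x) |>.congr_deriv (by simp)
  set φ : ℝ → ℝ := fun t => fderiv ℝ V (t • x) x - fderiv ℝ V 0 x - c * ‖x‖ ^ 2 * t with hφ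
  have hφd : ∀ t, HasDerivAt φ (fderiv ℝ (fderiv ℝ V) (t • x) x x - c * ‖x‖ ^ 2) t := fun t => by
    have h := ((hg' t).sub_const (fderiv ℝ V 0 x)).sub
      ((hasDerivAt_id t).const_mul (c * ‖x‖ ^ 2))
    rw [mul_one] at h
    exact h
  have hφm : Monotone φ := monotone_of_deriv_nonneg (fun t => (hφd t).differentiableAt)
    fun t => by
      rw [(hφd t).deriv]
      linarith [hlow (t • x) x]
  have hφ0 : φ 0 = 0 := by simp [hφ]
  set ψ : ℝ → ℝ := fun t => V (t • x) - V 0 - t * fderiv ℝ V 0 x - c / 2 * ‖x‖ ^ 2 * t ^ 2 with hψ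
  have hψd : ∀ t, HasDerivAt ψ (φ t) t := fun t => by
    have h := (((hg t).sub_const (V 0)).sub ((hasDerivAt_id t).mul_const (fderiv ℝ V 0 x))).sub
      (((hasDerivAt_pow 2 t).const_mul (c / 2 * ‖x‖ ^ 2)))
    refine h.congr_deriv ?_
    simp [hφ]
    ring
  have hψm : MonotoneOn ψ (Set.Ici 0) := by
    refine monotoneOn_of_deriv_nonneg (convex_Ici 0)
      (fun t _ => (hψd t).continuousAt.continuousWithinAt)
      (fun t _ => (hψd t).differentiableAt.differentiableWithinAt) fun t ht => ?_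
    rw [(hψd t).deriv, ← hφ0]
    rw [interior_Ici] at ht
    exact hφm (le_of_lt ht)
  have h01 : ψ 0 ≤ ψ 1 := hψm (by simp) (by simp) (by norm_num)
  have e0 : ψ 0 = 0 := by simp [hψ]
  have e1 : ψ 1 = V x - V 0 - fderiv ℝ V 0 x - c / 2 * ‖x‖ ^ 2 := by simp [hψ]
  rw [e0, e1] at h01
  have hop : -(‖fderiv ℝ V 0‖ * ‖x‖) ≤ fderiv ℝ V 0 x := by
    have := (fderiv ℝ V 0).le_opNorm x
    rw [Real.norm_eq_abs] at this
    linarith [neg_abs_le (fderiv ℝ V 0 x)]
  have hyoung : ‖fderiv ℝ V 0‖ * ‖x‖ ≤ c / 4 * ‖x‖ ^ 2 + ‖fderiv ℝ V 0‖ ^ 2 / c := by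
    have h5 : 0 ≤ (c / 2 * ‖x‖ - ‖fderiv ℝ V 0‖) ^ 2 / c := by positivity
    have h6 : (c / 2 * ‖x‖ - ‖fderiv ℝ V 0‖) ^ 2 / c
        = c / 4 * ‖x‖ ^ 2 - ‖fderiv ℝ V 0‖ * ‖x‖ + ‖fderiv ℝ V 0‖ ^ 2 / c := by
      field_simp
      ring
    linarith
  linarith

/-- Linear growth of `DV` from `‖D²V‖ ≤ C`. -/
theorem grad_growth {V : E → ℝ} (hV : ContDiff ℝ 2 V) {C : ℝ}
    (hup : ∀ x, ‖fderiv ℝ (fderiv ℝ V) x‖ ≤ C) (x : E) :
    ‖fderiv ℝ V x‖ ≤ (‖fderiv ℝ V 0‖ + C) * (1 + ‖x‖) ^ 1 := by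
  have hC : 0 ≤ C := (norm_nonneg (fderiv ℝ (fderiv ℝ V) 0)).trans (hup 0)
  have hd2 : Differentiable ℝ (fderiv ℝ V) :=
    (hV.fderiv_right (m := 1) (by norm_num)).differentiable (by norm_num)
  have h := Convex.norm_image_sub_le_of_norm_fderiv_le (𝕜 := ℝ) (f := fderiv ℝ V)
    (s := Set.univ) (x := 0) (y := x) (C := C) (fun x _ => hd2 x) (fun x _ => hup x)
    convex_univ (Set.mem_univ _) (Set.mem_univ _)
  have h2 : ‖fderiv ℝ V x‖ ≤ ‖fderiv ℝ V 0‖ + C * ‖x‖ := by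
    have h3 : ‖fderiv ℝ V x‖ ≤ ‖fderiv ℝ V 0‖ + ‖fderiv ℝ V x - fderiv ℝ V 0‖ := by
      calc ‖fderiv ℝ V x‖ = ‖fderiv ℝ V 0 + (fderiv ℝ V x - fderiv ℝ V 0)‖ := by
            congr 1; abel
        _ ≤ _ := norm_add_le _ _
    rw [sub_zero] at h
    linarith
  refine h2.trans ?_
  rw [pow_one]
  nlinarith [norm_nonneg x, norm_nonneg (fderiv ℝ V 0)]

end

noncomputable section

variable {E : Type*} [NormedAddCommGroup E] [InnerProductSpace ℝ E] [FiniteDimensional ℝ E]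
  [MeasurableSpace E] [BorelSpace E]

/-- Integrability against `e^{-V}`, hypotheses `c ≤ D²V`. -/
theorem integrable_of_hess {V g : E → ℝ} (hV : ContDiff ℝ 2 V) {c : ℝ} (hc : 0 < c)
    (hlow : ∀ x v, c * ‖v‖ ^ 2 ≤ fderiv ℝ (fderiv ℝ V) x v v)
    (hg : AEStronglyMeasurable g volume) {K : ℝ} {N : ℕ}
    (hgb : ∀ x, ‖g x‖ ≤ K * (1 + ‖x‖) ^ N) :
    Integrable (fun x => g x * exp (-V x)) := by
  obtain ⟨b, hb⟩ := quad_lower hV hc hlow
  exact integrable_mul_exp hg hV.continuous (a := c / 4) (b := b) (by positivity) hb hgb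

/-- Scalar integration by parts, hypotheses `c ≤ D²V` and `‖D²V‖ ≤ C`. -/
theorem integral_fderiv_sub_of_hess {V f : E → ℝ} (hV : ContDiff ℝ 2 V) (hf : ContDiff ℝ 1 f)
    {c C : ℝ} (hc : 0 < c) (hlow : ∀ x v, c * ‖v‖ ^ 2 ≤ fderiv ℝ (fderiv ℝ V) x v v)
    (hup : ∀ x, ‖fderiv ℝ (fderiv ℝ V) x‖ ≤ C)
    {C2 : ℝ} {N2 : ℕ} (hfg : ∀ x, ‖f x‖ ≤ C2 * (1 + ‖x‖) ^ N2)
    {C3 : ℝ} {N3 : ℕ} (hfg' : ∀ x, ‖fderiv ℝ f x‖ ≤ C3 * (1 + ‖x‖) ^ N3) (v : E) :
    ∫ x, (fderiv ℝ f x v - f x * fderiv ℝ V x v) * exp (-V x) = 0 := by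
  obtain ⟨b, hb⟩ := quad_lower hV hc hlow
  exact integral_fderiv_sub (hV.of_le (by norm_num)) hf (a := c / 4) (b := b) (by positivity) hb
    (fun x => grad_growth hV hup x) hfg hfg' v

/-- Vector integration by parts, hypotheses `c ≤ D²V` and `‖D²V‖ ≤ C`. -/
theorem integral_dvg_sub_of_hess {n : ℕ} {V : EuclideanSpace ℝ (Fin n) → ℝ}
    {w : EuclideanSpace ℝ (Fin n) → EuclideanSpace ℝ (Fin n)}
    (hV : ContDiff ℝ 2 V) (hw : ContDiff ℝ 1 w)
    {c C : ℝ} (hc : 0 < c) (hlow : ∀ x v, c * ‖v‖ ^ 2 ≤ fderiv ℝ (fderiv ℝ V) x v v)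
    (hup : ∀ x, ‖fderiv ℝ (fderiv ℝ V) x‖ ≤ C)
    {C2 : ℝ} {N2 : ℕ} (hwg : ∀ x, ‖w x‖ ≤ C2 * (1 + ‖x‖) ^ N2)
    {C3 : ℝ} {N3 : ℕ} (hwg' : ∀ x, ‖fderiv ℝ w x‖ ≤ C3 * (1 + ‖x‖) ^ N3) :
    ∫ x, (dvg w x - fderiv ℝ V x (w x)) * exp (-V x) = 0 := by
  obtain ⟨b, hb⟩ := quad_lower hV hc hlow
  exact integral_dvg_sub (hV.of_le (by norm_num)) hw (a := c / 4) (b := b) (by positivity) hb
    (fun x => grad_growth hV hup x) hwg hwg'

end

end Vale.Agent.P227.M.Loc
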